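import Vale.Agent.P092.H171.Cg

/-!
P092, TEAM N, block [N-CLS] (helper171, second seat): covariance of the calculus `Q = Qg hc Φ` of
the group, positions of conjugated calculi, generation.
-/

set_option linter.all false

namespace Vale.Agent.P092.H171

open MeasureTheory Topology TopologicalSpace Filter Set ContinuousLinearMap
open Vale.Agent.P092.H466
open scoped InnerProductSpace ZeroAtInfty

section grp

variable {G : Type*} [TopologicalSpace G] [Group G] [IsTopologicalGroup G]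
  {K : Type*} [NormedAddCommGroup K] [InnerProductSpace ℂ K] [CompleteSpace K]

/-- right translation -/
noncomputable def rtr (h : G) (ψ : C₀(G, ℂ)) : C₀(G, ℂ) :=
  ψ.comp ⟨⟨fun g => g * h, continuous_mul_const h⟩,
    (Homeomorph.mulRight h).isClosedEmbedding.tendsto_cocompact⟩

theorem rtr_apply (h : G) (ψ : C₀(G, ℂ)) (g : G) : rtr h ψ g = ψ (g * h) := rfl

/-- left translation -/
noncomputable def ltr (h : G) (ψ : C₀(G, ℂ)) : C₀(G, ℂ) :=
  ψ.comp ⟨⟨fun g => h * g, continuous_const_mul h⟩,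
    (Homeomorph.mulLeft h).isClosedEmbedding.tendsto_cocompact⟩

theorem ltr_apply (h : G) (ψ : C₀(G, ℂ)) (g : G) : ltr h ψ g = ψ (h * g) := rfl

/-- conjugation by `U` (inverse `V`) is the right translation by `x` -/
def Rt (Q : C₀(G, ℂ) → (K →L[ℂ] K)) (U V : K →L[ℂ] K) (x : G) : Prop :=
  ∀ ψ ψ' : C₀(G, ℂ), (∀ g, ψ' g = ψ (g * x)) → U * Q ψ * V = Q ψ'

/-- conjugation by `U` (inverse `V`) is the left translation by `x` -/
def Lt (Q : C₀(G, ℂ) → (K →L[ℂ] K)) (U V : K →L[ℂ] K) (x : G) : Prop :=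
  ∀ ψ ψ' : C₀(G, ℂ), (∀ g, ψ' g = ψ (x⁻¹ * g)) → U * Q ψ * V = Q ψ'

variable {Q : C₀(G, ℂ) → (K →L[ℂ] K)}

theorem Rt.one : Rt Q 1 1 1 := by
  intro ψ ψ' h
  have e : ψ' = ψ := by ext g; rw [h, mul_one]
  rw [e, one_mul, mul_one]

theorem Rt.mul {U V U' V' : K →L[ℂ] K} {x x' : G} (h : Rt Q U V x) (h' : Rt Q U' V' x') :
    Rt Q (U * U') (V' * V) (x * x') := by
  intro ψ ψ' e
  have h1 := h' ψ (rtr x' ψ) fun g => rfl
  have h2 := h (rtr x' ψ) ψ' fun g => by rw [e, rtr_apply, mul_assoc]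
  rw [← h2, ← h1]
  simp only [mul_assoc]

theorem Rt.inv {U V : K →L[ℂ] K} (hUV : U * V = 1) (hVU : V * U = 1) {x : G} (h : Rt Q U V x) :
    Rt Q V U x⁻¹ := by
  intro ψ ψ' e
  have h1 := h ψ' ψ fun g => by rw [e, mul_assoc, mul_inv_cancel, mul_one]
  rw [← h1]
  calc V * (U * Q ψ' * V) * U = (V * U) * Q ψ' * (V * U) := by simp only [mul_assoc]
    _ = Q ψ' := by rw [hVU, one_mul, mul_one]

theorem Lt.inv {U V : K →L[ℂ] K} (hUV : U * V = 1) (hVU : V * U = 1) {x : G} (h : Lt Q U V x) :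
    Lt Q V U x⁻¹ := by
  intro ψ ψ' e
  have h1 := h ψ' ψ fun g => by rw [e, inv_inv, mul_inv_cancel_left]
  rw [← h1]
  calc V * (U * Q ψ' * V) * U = (V * U) * Q ψ' * (V * U) := by simp only [mul_assoc]
    _ = Q ψ' := by rw [hVU, one_mul, mul_one]

variable {P : Type*} [TopologicalSpace P]

/-- a conjugated calculus has the translated position -/
theorem Pos.conj {φ φ' : C(P, ℂ) → (K →L[ℂ] K)} {θ : G → P} (h : Pos Q φ θ) {U V : K →L[ℂ] K}
    (hUV : U * V = 1) (hVU : V * U = 1) {x : G} (hx : Rt Q U V x)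
    (hφ : ∀ f, U * φ f * V = φ' f) : Pos Q φ' fun g => θ (g * x) := by
  intro f ψ ψ' e
  have hx' := hx.inv hUV hVU
  have e1 := hx (rtr x⁻¹ ψ) ψ fun g => by rw [rtr_apply, mul_assoc, mul_inv_cancel, mul_one]
  have e2 := hx (rtr x⁻¹ ψ') ψ' fun g => by rw [rtr_apply, mul_assoc, mul_inv_cancel, mul_one]
  have e3 := h f (rtr x⁻¹ ψ) (rtr x⁻¹ ψ') fun g => by
    rw [rtr_apply, rtr_apply, e]
    simp only [inv_mul_cancel_right]
  rw [← e1, ← e2, ← e3, ← hφ]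
  calc U * φ f * V * (U * Q (rtr x⁻¹ ψ) * V) = U * φ f * (V * U) * Q (rtr x⁻¹ ψ) * V := by
        simp only [mul_assoc]
    _ = _ := by rw [hVU, mul_one]; simp only [mul_assoc]

/-- conjugation by an operator which translates on the left -/
theorem Pos.conj_left {φ φ' : C(P, ℂ) → (K →L[ℂ] K)} {θ : G → P} (h : Pos Q φ θ)
    {U V : K →L[ℂ] K} (hUV : U * V = 1) (hVU : V * U = 1) {x : G} (hx : Lt Q U V x)
    (hφ : ∀ f, U * φ f * V = φ' f) : Pos Q φ' fun g => θ (x⁻¹ * g) := by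
  intro f ψ ψ' e
  have e1 := hx (ltr x ψ) ψ fun g => by rw [ltr_apply, mul_inv_cancel_left]
  have e2 := hx (ltr x ψ') ψ' fun g => by rw [ltr_apply, mul_inv_cancel_left]
  have e3 := h f (ltr x ψ) (ltr x ψ') fun g => by
    rw [ltr_apply, ltr_apply, e]
    simp only [inv_mul_cancel_left]
  rw [← e1, ← e2, ← e3, ← hφ]
  calc U * φ f * V * (U * Q (ltr x ψ) * V) = U * φ f * (V * U) * Q (ltr x ψ) * V := by
        simp only [mul_assoc]
    _ = _ := by rw [hVU, mul_one]; simp only [mul_assoc]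

end grp

section core

variable {G : Type*} [TopologicalSpace G] [Group G] [IsTopologicalGroup G]
  {P : Type*} [TopologicalSpace P] [CompactSpace P] [MetrizableSpace P]
  [SecondCountableTopology P] [MeasurableSpace P] [BorelSpace P]
  {ι : Type*} [Finite ι]
  {K : Type*} [NormedAddCommGroup K] [InnerProductSpace ℂ K] [CompleteSpace K]
  {c : G → ι → P} (hc : IsOpenEmbedding c) {Φ : C(ι → P, ℂ) →⋆ₐ[ℂ] (K →L[ℂ] K)}

/-- generation -/
theorem Qg_comm {T : K →L[ℂ] K} (hT : ∀ i f, Commute T (Φ (co i f))) (ψ : C₀(G, ℂ)) :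
    Commute T (Qg hc Φ ψ) := comm_all Φ hT _

variable (hr : ∀ ξ, ∀ᵐ z ∂(ms Φ ξ), z ∈ range c)

/-- **left covariance** -/
theorem Qg_left {U V : K →L[ℂ] K} (hUV : U * V = 1) (hVU : V * U = 1) {x : G} (g : C(P, P))
    (hg : ∀ y i, g (c y i) = c (x⁻¹ * y) i)
    (hU : ∀ i f, U * Φ (co i f) * V = Φ (co i (f.comp g)))
    (hr : ∀ ξ, ∀ᵐ z ∂(ms Φ ξ), z ∈ range c) : Lt (Qg hc Φ) U V x := by
  intro ψ ψ' hψ
  have h1 := conj_eq Φ Φ ⟨fun z i => g (z i), by fun_prop⟩ hUV hVU (by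
    intro i f
    exact hU i f) (ext hc ψ)
  rw [Qg_apply, Qg_apply, h1]
  refine phi_congr_ae Φ fun ξ => ?_
  filter_upwards [hr ξ] with z hz
  obtain ⟨y, rfl⟩ := hz
  have h2 : (fun i => g (c y i)) = c (x⁻¹ * y) := funext fun i => hg y i
  change ext hc ψ (fun i => g (c y i)) = ext hc ψ' (c y)
  rw [h2, ext_apply, ext_apply, hψ]

/-- **right covariance**: if the conjugated frame has the position `g ↦ c (g * x)`, conjugation is
the right translation by `x`. `φ` is the conjugated frame, `Ψ` a joint calculus. -/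
theorem Qg_right_of {U V : K →L[ℂ] K} (hUV : U * V = 1) (hVU : V * U = 1) {x : G}
    {Ψ : C(ι ⊕ ι → P, ℂ) →⋆ₐ[ℂ] (K →L[ℂ] K)} (h1 : ∀ i f, Ψ (co (.inl i) f) = Φ (co i f))
    (h2 : ∀ i f, Ψ (co (.inr i) f) = U * Φ (co i f) * V)
    (hr : ∀ ξ, ∀ᵐ z ∂(ms Φ ξ), z ∈ range c)
    (hp : ∀ i, Pos (Qg hc Φ) (fun f => U * Φ (co i f) * V) fun g => c (g * x) i) :
    Rt (Qg hc Φ) U V x := by
  intro ψ ψ' hψ
  let R1 : C(ι ⊕ ι → P, ι → P) := ⟨fun z i => z (.inl i), by fun_prop⟩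
  let R2 : C(ι ⊕ ι → P, ι → P) := ⟨fun z i => z (.inr i), by fun_prop⟩
  have e : Ψ.comp (R1.compStarAlgHom' ℂ ℂ) = Φ := by
    refine hom_uniq fun i f => ?_
    exact h1 i f
  have e2 : ∀ F, Φ F = Ψ (F.comp R1) := fun F => by rw [← e]; rfl
  have h3 := conj_eq Φ (Ψ.comp (R2.compStarAlgHom' ℂ ℂ)) (ContinuousMap.id _) hUV hVU (by
    intro i f
    exact (h2 i f).symm) (ext hc ψ)
  rw [Qg_apply, Qg_apply, h3, e2]
  change Ψ ((ext hc ψ).comp R2) = _
  refine phi_congr_ae Ψ fun ξ => ?_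
  have h4 : ∀ᵐ z ∂(ms Ψ ξ), R1 z ∈ range c := by
    refine ae_restr Ψ R1 ξ (p := fun y => y ∈ range c) ?_
    rw [e]
    exact hr ξ
  have h5 : ∀ᵐ z ∂(ms Ψ ξ), ∀ i, ∀ g, (∀ i', z (.inl i') = c g i') → z (.inr i) = c (g * x) i := by
    rw [ae_all_iff]
    intro i
    refine ae_of_pos hc hr (r := Sum.inl) h1 (h2 i) ?_ (hp i) ξ
    exact (continuous_apply i).comp (hc.continuous.comp (continuous_mul_const x))
  filter_upwards [h4, h5] with z hz hz2
  obtain ⟨g, hg⟩ := hz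
  have h6 : R2 z = c (g * x) := funext fun i => hz2 i g fun i' => (congrFun hg i').symm
  rw [ContinuousMap.comp_apply, ContinuousMap.comp_apply, h6, ← hg, ext_apply, ext_apply, hψ]

end core

/-! ### A commuting family of calculi -/

section fam

variable {G : Type*} [TopologicalSpace G] [Group G] [IsTopologicalGroup G]
  {P : Type*} [TopologicalSpace P] [CompactSpace P] [MetrizableSpace P]
  [SecondCountableTopology P] [MeasurableSpace P] [BorelSpace P]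
  {ι : Type*} [Finite ι]
  {K : Type*} [NormedAddCommGroup K] [InnerProductSpace ℂ K] [CompleteSpace K]
  {c : G → ι → P} (hc : IsOpenEmbedding c) {Φ : C(ι → P, ℂ) →⋆ₐ[ℂ] (K →L[ℂ] K)}
  {A : Type*} {E : A → (C(P, ℂ) →⋆ₐ[ℂ] (K →L[ℂ] K))}
  (hcomm : ∀ a b f g, Commute (E a f) (E b g)) {s : ι → A}
  (hΦ : ∀ i f, Φ (co i f) = E (s i) f)
  (hr : ∀ ξ, ∀ᵐ z ∂(ms Φ ξ), z ∈ range c)

include hcomm hΦ hr

/-- **positions from positions**: `b j` has the position `θ j` for all `j`, and in the joint law the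
position of `b₀` is determined -/
theorem pos_of_pos {κ : Type*} [Finite κ] {b : κ → A} {θ : κ → G → P}
    (hθ : ∀ j, Continuous (θ j)) (h : ∀ j, Pos (Qg hc Φ) (E (b j)) (θ j)) {b₀ : A} {θ₀ : G → P}
    (hgeo : ∀ Ψ : C(Option κ → P, ℂ) →⋆ₐ[ℂ] (K →L[ℂ] K),
      (∀ j f, Ψ (co (some j) f) = E (b j) f) → (∀ f, Ψ (co none f) = E b₀ f) →
      ∀ ξ, ∀ᵐ z ∂(ms Ψ ξ), ∀ g, (∀ j, z (some j) = θ j g) → z none = θ₀ g) :
    Pos (Qg hc Φ) (E b₀) θ₀ := by
  obtain ⟨Ψ, hΨ⟩ := exists_joint (fun t : ι ⊕ Option κ =>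
    E (Sum.elim s (fun o => o.elim b₀ b) t)) (fun t t' f g => hcomm _ _ f g)
  let R : C(ι ⊕ Option κ → P, Option κ → P) := ⟨fun z o => z (.inr o), by fun_prop⟩
  have h0 := hgeo (Ψ.comp (R.compStarAlgHom' ℂ ℂ)) (fun j f => hΨ (.inr (some j)) f)
    (fun f => hΨ (.inr none) f)
  refine pos_of_ae hc hr (r := Sum.inl) (Ψ := Ψ) (fun i f => by rw [hΨ, hΦ]; rfl)
    (j := .inr none) (fun f => hΨ (.inr none) f) fun ξ => ?_
  have h1 : ∀ᵐ z ∂(ms Ψ ξ), ∀ g, (∀ j, z (.inr (some j)) = θ j g) → z (.inr none) = θ₀ g :=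
    ae_restr Ψ R ξ (p := fun y => ∀ g, (∀ j, y (some j) = θ j g) → y none = θ₀ g) (h0 ξ)
  have h2 : ∀ᵐ z ∂(ms Ψ ξ), ∀ j, ∀ g, (∀ i, z (.inl i) = c g i) →
      z (.inr (some j)) = θ j g := by
    have hctb : Countable κ := Finite.to_countable
    rw [ae_all_iff]
    intro j
    exact ae_of_pos hc hr (r := Sum.inl) (Ψ := Ψ) (fun i f => by rw [hΨ, hΦ]; rfl)
      (fun f => hΨ (.inr (some j)) f) (hθ j) (h j) ξ
  filter_upwards [h1, h2] with z hz1 hz2 g hg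
  exact hz1 g fun j => hz2 j g hg

/-- **laws from positions**: in any joint law of calculi with positions, there is `g` with all
values `θ j g` -/
theorem ae_exists_g {κ : Type*} [Finite κ] {b : κ → A} {θ : κ → G → P}
    (hθ : ∀ j, Continuous (θ j)) (h : ∀ j, Pos (Qg hc Φ) (E (b j)) (θ j))
    {Ψ : C(κ → P, ℂ) →⋆ₐ[ℂ] (K →L[ℂ] K)} (hΨ : ∀ j f, Ψ (co j f) = E (b j) f) (ξ : K) :
    ∀ᵐ z ∂(ms Ψ ξ), ∃ g, ∀ j, z j = θ j g := by
  obtain ⟨Ψ', hΨ'⟩ := exists_joint (fun t : ι ⊕ κ => E (Sum.elim s b t))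
    (fun t t' f g => hcomm _ _ f g)
  let R1 : C(ι ⊕ κ → P, ι → P) := ⟨fun z i => z (.inl i), by fun_prop⟩
  let R2 : C(ι ⊕ κ → P, κ → P) := ⟨fun z i => z (.inr i), by fun_prop⟩
  have e1 : Ψ'.comp (R1.compStarAlgHom' ℂ ℂ) = Φ := by
    refine hom_uniq fun i f => ?_
    rw [hΦ]
    exact hΨ' (.inl i) f
  have e2 : Ψ'.comp (R2.compStarAlgHom' ℂ ℂ) = Ψ := by
    refine hom_uniq fun i f => ?_
    rw [hΨ]
    exact hΨ' (.inr i) f
  haveI : LocallyCompactSpace G := hc.locallyCompactSpace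
  haveI : SecondCountableTopology G := hc.isEmbedding.secondCountableTopology
  have hm : MeasurableSet {y : κ → P | ∃ g, ∀ j, y j = θ j g} := by
    have e : {y : κ → P | ∃ g, ∀ j, y j = θ j g} = range fun g j => θ j g := by
      ext y
      constructor
      · rintro ⟨g, hg⟩
        exact ⟨g, (funext hg).symm⟩
      · rintro ⟨g, rfl⟩
        exact ⟨g, fun j => rfl⟩
    rw [e]
    have h1 : IsSigmaCompact (range fun g j => θ j g) :=
      isSigmaCompact_range (continuous_pi hθ)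
    obtain ⟨C, hC, hC2⟩ := h1
    rw [← hC2]
    exact MeasurableSet.iUnion fun n => (hC n).measurableSet
  rw [← e2, ms_restr, ae_map_iff R2.continuous.measurable.aemeasurable hm]
  have h4 : ∀ᵐ z ∂(ms Ψ' ξ), R1 z ∈ range c := by
    refine ae_restr Ψ' R1 ξ (p := fun y => y ∈ range c) ?_
    rw [e1]
    exact hr ξ
  have h5 : ∀ᵐ z ∂(ms Ψ' ξ), ∀ j, ∀ g, (∀ i, z (.inl i) = c g i) → z (.inr j) = θ j g := by
    have hctb : Countable κ := Finite.to_countable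
    rw [ae_all_iff]
    intro j
    exact ae_of_pos hc hr (r := Sum.inl) (Ψ := Ψ') (fun i f => by rw [hΨ', hΦ]; rfl)
      (fun f => hΨ' (.inr j) f) (hθ j) (h j) ξ
  filter_upwards [h4, h5] with z hz hz2
  obtain ⟨g, hg⟩ := hz
  exact ⟨g, fun j => hz2 j g fun i => (congrFun hg i).symm⟩

/-- **right covariance**, for a commuting family -/
theorem right_of_pos {U V : K →L[ℂ] K} (hUV : U * V = 1) (hVU : V * U = 1) {x : G} {s' : ι → A}
    (hU : ∀ i f, U * E (s i) f * V = E (s' i) f)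
    (hp : ∀ i, Pos (Qg hc Φ) (E (s' i)) fun g => c (g * x) i) : Rt (Qg hc Φ) U V x := by
  obtain ⟨Ψ, hΨ⟩ := exists_joint (fun t : ι ⊕ ι => E (Sum.elim s s' t))
    (fun t t' f g => hcomm _ _ f g)
  refine Qg_right_of hc hUV hVU (Ψ := Ψ) (fun i f => by rw [hΨ, hΦ]; rfl)
    (fun i f => by rw [hΨ, hΦ, hU]; rfl) hr fun i => ?_
  have e : (fun f => U * Φ (co i f) * V) = E (s' i) := by
    funext f
    rw [hΦ, hU]
  rw [e]
  exact hp i

end fam

end Vale.Agent.P092.H171
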