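import Vale.Agent.P092.H171.Jt

/-!
P092, TEAM D, block [E-J] (helper171): the joint calculus of commuting calculi, by Gelfand duality.
-/

set_option linter.all false

namespace Vale.Agent.P092.H171

open Topology TopologicalSpace Filter Set WeakDual WeakDual.CharacterSpace
open scoped InnerProductSpace ComplexConjugate

/-- functions of a point -/
theorem exists_joint_comm {B : Type*} [CommCStarAlgebra B] {P : Type*} [TopologicalSpace P]
    [CompactSpace P] [T2Space P] {ι : Type*} (φ : ι → (C(P, ℂ) →⋆ₐ[ℂ] B)) :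
    ∃ Φ : C(ι → P, ℂ) →⋆ₐ[ℂ] B, ∀ i f, Φ (co i f) = φ i f := by
  let y : ∀ i, C(characterSpace ℂ B, P) := fun i =>
    ((homeoEval P ℂ).symm : C(characterSpace ℂ C(P, ℂ), P)).comp (compContinuousMap (φ i))
  have hy : ∀ i f (χ : characterSpace ℂ B), f (y i χ) = χ (φ i f) := by
    intro i f χ
    have h1 : homeoEval P ℂ (y i χ) = compContinuousMap (φ i) χ :=
      (homeoEval P ℂ).apply_symm_apply _
    have h2 := DFunLike.congr_fun h1 f
    exact h2
  let Y : C(characterSpace ℂ B, ι → P) := ⟨fun χ i => y i χ, by fun_prop⟩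
  refine ⟨((gelfandStarTransform B).symm : C(characterSpace ℂ B, ℂ) →⋆ₐ[ℂ] B).comp
    (Y.compStarAlgHom' ℂ ℂ), fun i f => ?_⟩
  change (gelfandStarTransform B).symm ((co i f).comp Y) = φ i f
  rw [StarAlgEquiv.symm_apply_eq]
  ext χ
  exact hy i f χ

section joint

variable {K : Type*} [NormedAddCommGroup K] [InnerProductSpace ℂ K] [CompleteSpace K]
  {P : Type*} [TopologicalSpace P] [CompactSpace P] [T2Space P] {ι : Type*}

/-- **[E-J]** -/
theorem exists_joint (φ : ι → (C(P, ℂ) →⋆ₐ[ℂ] (K →L[ℂ] K)))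
    (hc : ∀ i j f g, Commute (φ i f) (φ j g)) :
    ∃ Φ : C(ι → P, ℂ) →⋆ₐ[ℂ] (K →L[ℂ] K), ∀ i f, Φ (co i f) = φ i f := by
  let S : Set (K →L[ℂ] K) := {T | ∃ i f, T = φ i f}
  let C1 : StarSubalgebra ℂ (K →L[ℂ] K) := StarSubalgebra.centralizer ℂ S
  let A : StarSubalgebra ℂ (K →L[ℂ] K) :=
    StarSubalgebra.centralizer ℂ (C1 : Set (K →L[ℂ] K))
  have hS1 : ∀ T ∈ S, T ∈ C1 := by
    rintro T ⟨i, f, rfl⟩
    rw [StarSubalgebra.mem_centralizer_iff]
    rintro _ ⟨j, g, rfl⟩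
    refine ⟨hc j i g f, ?_⟩
    rw [← map_star]
    exact hc j i (star g) f
  have hSA : ∀ T ∈ S, T ∈ A := by
    rintro T hT
    rw [StarSubalgebra.mem_centralizer_iff]
    intro Z hZ
    have h1 := StarSubalgebra.mem_centralizer_iff ℂ |>.1 hZ T hT
    have h2 := StarSubalgebra.mem_centralizer_iff ℂ |>.1 (star_mem hZ) T hT
    exact ⟨h1.1.symm, h2.1.symm⟩
  have hA1 : ∀ T ∈ A, T ∈ C1 := by
    intro T hT
    rw [StarSubalgebra.mem_centralizer_iff]
    intro Z hZ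
    exact StarSubalgebra.mem_centralizer_iff ℂ |>.1 hT Z (hS1 Z hZ)
  have hAc : ∀ T ∈ A, ∀ Z ∈ A, T * Z = Z * T := by
    intro T hT Z hZ
    exact (StarSubalgebra.mem_centralizer_iff ℂ |>.1 hZ T (hA1 T hT)).1
  haveI hcl : IsClosed (A : Set (K →L[ℂ] K)) := Set.isClosed_centralizer _
  letI : CommCStarAlgebra A :=
    { (inferInstance : CStarAlgebra A) with
      mul_comm := fun x y => Subtype.ext (hAc x.1 x.2 y.1 y.2) }
  let φ' : ι → (C(P, ℂ) →⋆ₐ[ℂ] A) := fun i =>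
    (φ i).codRestrict A fun f => hSA _ ⟨i, f, rfl⟩
  obtain ⟨Φ, hΦ⟩ := exists_joint_comm φ'
  refine ⟨A.subtype.comp Φ, fun i f => ?_⟩
  change A.subtype (Φ (co i f)) = φ i f
  rw [hΦ]
  rfl

end joint

end Vale.Agent.P092.H171
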