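import Vale.Agent.P092.H171.Gp

/-!
P092, TEAM N, block [N-CLS] (helper171, second seat of helper121): the 0-1 lemma for a Borel
function of a calculus, restriction and conjugation of spectral measures.
-/

set_option linter.all false

namespace Vale.Agent.P092.H171

open MeasureTheory Topology TopologicalSpace Filter Set
open Vale.Agent.P092.H466
open scoped InnerProductSpace ENNReal NNReal ComplexConjugate

section zo

variable {X : Type*} [TopologicalSpace X] [CompactSpace X] [MetrizableSpace X]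
  [MeasurableSpace X] [BorelSpace X]
  {K : Type*} [NormedAddCommGroup K] [InnerProductSpace ℂ K] [CompleteSpace K]
  (φ : C(X, ℂ) →⋆ₐ[ℂ] (K →L[ℂ] K))

theorem ae_notMem_of_pv_zero {A : Set X} (hA : MeasurableSet A) (h : pv φ A = 0) (ξ : K) :
    ∀ᵐ z ∂(ms φ ξ), z ∉ A := by
  have h1 := enorm_pv_sq φ hA ξ
  rw [h] at h1
  exact measure_eq_zero_iff_ae_notMem.1 (by rw [← h1]; simp)

theorem ae_mem_of_pv_one {A : Set X} (hA : MeasurableSet A) (h : pv φ A = 1) (ξ : K) :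
    ∀ᵐ z ∂(ms φ ξ), z ∈ A := by
  have h1 : pv φ Aᶜ = 0 := by rw [pv_compl φ hA, h, sub_self]
  filter_upwards [ae_notMem_of_pv_zero φ hA.compl h1 ξ] with z hz
  by_contra hc
  exact hz hc

/-- `pv A = 0` iff `A` is null for all spectral measures -/
theorem pv_eq_zero_iff {A : Set X} (hA : MeasurableSet A) :
    pv φ A = 0 ↔ ∀ ξ, ∀ᵐ z ∂(ms φ ξ), z ∉ A := by
  refine ⟨ae_notMem_of_pv_zero φ hA, fun h => ?_⟩
  ext ξ
  have h1 := enorm_pv_sq φ hA ξ
  rw [measure_eq_zero_iff_ae_notMem.2 (h ξ)] at h1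
  simpa using h1

/-- `pv A = 1` iff almost every point is in `A` -/
theorem pv_eq_one_iff {A : Set X} (hA : MeasurableSet A) :
    pv φ A = 1 ↔ ∀ ξ, ∀ᵐ z ∂(ms φ ξ), z ∈ A := by
  refine ⟨ae_mem_of_pv_one φ hA, fun h => ?_⟩
  have h1 : pv φ Aᶜ = 0 := (pv_eq_zero_iff φ hA.compl).2 fun ξ => by
    filter_upwards [h ξ] with z hz hz'
    exact hz' hz
  rw [pv_compl φ hA, sub_eq_zero] at h1
  exact h1.symm

theorem scalar_pv {A : Set X} {c : ℂ} (h : pv φ A = c • (1 : K →L[ℂ] K)) :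
    pv φ A = 0 ∨ pv φ A = 1 := by
  by_cases hn : (1 : K →L[ℂ] K) = 0
  · left
    rw [h, hn, smul_zero]
  have h1 := pv_idem φ A
  rw [h, smul_mul_smul_comm, one_mul] at h1
  have h2 : (c * c - c) • (1 : K →L[ℂ] K) = 0 := by rw [sub_smul, h1, sub_self]
  rcases smul_eq_zero.1 h2 with h3 | h3
  · have h4 : c * (c - 1) = 0 := by rw [mul_sub, mul_one]; exact h3
    rcases mul_eq_zero.1 h4 with h5 | h5
    · left; rw [h, h5, zero_smul]
    · right; rw [h, sub_eq_zero.1 h5, one_smul]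
  · exact absurd h3 hn

/-- **The 0-1 lemma**: a Borel function of the calculus whose spectral projections are scalars is
constant. -/
theorem zero_one_const [Nontrivial K] {P : Type*} [TopologicalSpace P] [SecondCountableTopology P]
    [T1Space P] [MeasurableSpace P] [OpensMeasurableSpace P] {w : X → P} (hw : Measurable w)
    (h : ∀ U : Set P, IsOpen U → ∃ c : ℂ, pv φ (w ⁻¹' U) = c • (1 : K →L[ℂ] K)) :
    ∃ p, ∀ ξ, ∀ᵐ z ∂(ms φ ξ), w z = p := by
  have hd : ∀ U : Set P, IsOpen U → pv φ (w ⁻¹' U) = 0 ∨ pv φ (w ⁻¹' U) = 1 := by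
    intro U hU
    obtain ⟨c, hc⟩ := h U hU
    exact scalar_pv φ hc
  have hb := isBasis_countableBasis P
  have hcb := countable_countableBasis P
  have hm : ∀ U ∈ countableBasis P, MeasurableSet (w ⁻¹' U) := fun U hU =>
    hw (hb.isOpen hU).measurableSet
  -- the union of the null basic sets is null
  have hN : ∀ ξ, ∀ᵐ z ∂(ms φ ξ), ∀ U ∈ countableBasis P, pv φ (w ⁻¹' U) = 0 → w z ∉ U := by
    intro ξ
    refine (ae_ball_iff hcb).2 fun U hU => ?_
    by_cases h0 : pv φ (w ⁻¹' U) = 0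
    · filter_upwards [ae_notMem_of_pv_zero φ (hm U hU) h0 ξ] with z hz _
      exact hz
    · exact Eventually.of_forall fun z h1 => absurd h1 h0
  obtain ⟨ξ0, hξ0⟩ := exists_ne (0 : K)
  have hne : ∃ p : P, ∀ U ∈ countableBasis P, p ∈ U → pv φ (w ⁻¹' U) = 1 := by
    by_contra hcon
    push Not at hcon
    have h1 : ∀ᵐ z ∂(ms φ ξ0), False := by
      filter_upwards [hN ξ0] with z hz
      obtain ⟨U, hU, hzU, hpU⟩ := hcon (w z)
      rcases hd U (hb.isOpen hU) with h2 | h2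
      · exact hz U hU h2 hzU
      · exact hpU h2
    have h5 : ms φ ξ0 univ = 0 :=
      measure_eq_zero_iff_ae_notMem.2 (h1.mono fun z hz => hz.elim)
    have h6 := ms_univ φ ξ0
    rw [Measure.real, h5] at h6
    exact hξ0 (by simpa using h6.symm)
  obtain ⟨p, hp⟩ := hne
  refine ⟨p, fun ξ => ?_⟩
  have h1 : ∀ᵐ z ∂(ms φ ξ), ∀ U ∈ countableBasis P, p ∈ U → w z ∈ U := by
    refine (ae_ball_iff hcb).2 fun U hU => ?_
    by_cases hpU : p ∈ U
    · filter_upwards [ae_mem_of_pv_one φ (hm U hU) (hp U hU hpU) ξ] with z hz _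
      exact hz
    · exact Eventually.of_forall fun z h1 => absurd h1 hpU
  filter_upwards [h1] with z hz
  by_contra hne
  have hop : IsOpen ({w z}ᶜ : Set P) := isClosed_singleton.isOpen_compl
  obtain ⟨U, hU, hpU, hUs⟩ := hb.exists_subset_of_mem_open
    (show p ∈ ({w z}ᶜ : Set P) from fun h => hne h.symm) hop
  exact hUs (hz U hU hpU) rfl

end zo

section restr

variable {X : Type*} [TopologicalSpace X] [CompactSpace X] [MetrizableSpace X]
  [MeasurableSpace X] [BorelSpace X]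
  {Y : Type*} [TopologicalSpace Y] [CompactSpace Y] [MetrizableSpace Y]
  [MeasurableSpace Y] [BorelSpace Y]
  {K : Type*} [NormedAddCommGroup K] [InnerProductSpace ℂ K] [CompleteSpace K]
  {K' : Type*} [NormedAddCommGroup K'] [InnerProductSpace ℂ K'] [CompleteSpace K']

/-- restriction: the calculus `f ↦ φ (f ∘ r)` -/
theorem pv_restr (φ : C(X, ℂ) →⋆ₐ[ℂ] (K →L[ℂ] K)) (r : C(X, Y)) {A : Set Y}
    (hA : MeasurableSet A) : pv (φ.comp (r.compStarAlgHom' ℂ ℂ)) A = pv φ (r ⁻¹' A) := by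
  ext ξ
  have := pv_intertwine φ (φ.comp (r.compStarAlgHom' ℂ ℂ)) (1 : K →L[ℂ] K) r
    (fun F η => rfl) hA ξ
  exact this

theorem ms_restr (φ : C(X, ℂ) →⋆ₐ[ℂ] (K →L[ℂ] K)) (r : C(X, Y)) (ξ : K) :
    ms (φ.comp (r.compStarAlgHom' ℂ ℂ)) ξ = (ms φ ξ).map r := by
  ext A hA
  rw [Measure.map_apply r.continuous.measurable hA, ← enorm_pv_sq _ hA,
    ← enorm_pv_sq φ (hA.preimage r.continuous.measurable), pv_restr φ r hA]

theorem ae_restr (φ : C(X, ℂ) →⋆ₐ[ℂ] (K →L[ℂ] K)) (r : C(X, Y)) (ξ : K) {p : Y → Prop}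
    (h : ∀ᵐ y ∂(ms (φ.comp (r.compStarAlgHom' ℂ ℂ)) ξ), p y) :
    ∀ᵐ x ∂(ms φ ξ), p (r x) := by
  rw [ms_restr] at h
  exact ae_of_ae_map r.continuous.measurable.aemeasurable h

/-- conjugated calculi have conjugated spectral projections -/
theorem pv_conj_eq {φ : C(X, ℂ) →⋆ₐ[ℂ] (K →L[ℂ] K)} {ψ : C(X, ℂ) →⋆ₐ[ℂ] (K →L[ℂ] K)}
    {U V : K →L[ℂ] K} (hUV : U * V = 1) (hVU : V * U = 1) (h : ∀ f, U * φ f * V = ψ f)
    (A : Set X) : U * pv φ A * V = pv ψ A := by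
  by_cases hA : MeasurableSet A
  · have key : ∀ ξ, pv ψ A (U ξ) = U (pv φ A ξ) := by
      intro ξ
      refine pv_intertwine φ ψ U (ContinuousMap.id X) (fun F η => ?_) hA ξ
      rw [← h F, mul_apply_eq_comp, mul_apply_eq_comp, ← mul_apply_eq_comp V, hVU,
        one_apply_eq_self]
      rfl
    ext ξ
    rw [mul_apply_eq_comp, mul_apply_eq_comp, ← key, ← mul_apply_eq_comp U, hUV,
      one_apply_eq_self]
  · rw [pv_of_not φ hA, pv_of_not ψ hA, mul_zero, zero_mul]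

/-- spectral measures of conjugated calculi, `U` isometric -/
theorem ms_conj_eq {φ : C(X, ℂ) →⋆ₐ[ℂ] (K →L[ℂ] K)} {ψ : C(X, ℂ) →⋆ₐ[ℂ] (K →L[ℂ] K)}
    {U V : K →L[ℂ] K} (hUV : U * V = 1) (hVU : V * U = 1) (h : ∀ f, U * φ f * V = ψ f)
    (hU : ∀ ξ, ‖U ξ‖ = ‖ξ‖) (ξ : K) : ms ψ (U ξ) = ms φ ξ := by
  ext A hA
  rw [← enorm_pv_sq ψ hA, ← enorm_pv_sq φ hA, ← pv_conj_eq hUV hVU h, mul_apply_eq_comp,
    mul_apply_eq_comp, ← mul_apply_eq_comp V, hVU, one_apply_eq_self, enorm_eq_iff_norm_eq.2 (hU _)]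

end restr

end Vale.Agent.P092.H171
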