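import Mathlib

/-!
P092, TEAM D, block [ext] of [D-CLS] (helper171): extension by zero along an open embedding in a
compact space.
-/

set_option linter.all false

namespace Vale.Agent.P092.H171

open Topology TopologicalSpace Filter Set
open scoped ZeroAtInfty

section ext

variable {X Z : Type*} [TopologicalSpace X] [TopologicalSpace Z] [CompactSpace Z] [T2Space Z]
  {c : X → Z}

theorem continuous_extend (hc : IsOpenEmbedding c) (ψ : C₀(X, ℂ)) :
    Continuous (Function.extend c ψ 0) := by
  rw [continuous_iff_continuousAt]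
  intro z
  by_cases hz : z ∈ range c
  · obtain ⟨x, rfl⟩ := hz
    rw [← hc.continuousAt_iff, show Function.extend c ψ 0 ∘ c = ψ from
      funext fun x => hc.injective.extend_apply _ _ _]
    exact ψ.continuous.continuousAt
  · have h0 : Function.extend c ψ 0 z = 0 := Function.extend_apply' _ _ _ hz
    rw [ContinuousAt, h0, Metric.tendsto_nhds]
    intro ε hε
    have h1 := ψ.zero_at_infty'
    rw [Metric.tendsto_nhds] at h1
    have h2 := h1 ε hε
    rw [Filter.Eventually, mem_cocompact] at h2
    obtain ⟨K, hK, hKs⟩ := h2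
    have hcl : IsClosed (c '' K) := (hK.image hc.continuous).isClosed
    have hzK : z ∈ (c '' K)ᶜ := fun ⟨x, _, hx⟩ => hz ⟨x, hx⟩
    filter_upwards [hcl.isOpen_compl.mem_nhds hzK] with z' hz'
    by_cases hr : z' ∈ range c
    · obtain ⟨x, rfl⟩ := hr
      rw [hc.injective.extend_apply]
      exact hKs fun hx => hz' ⟨x, hx, rfl⟩
    · rw [Function.extend_apply' _ _ _ hr]
      simpa using hε

/-- extension by zero -/
noncomputable def ext (hc : IsOpenEmbedding c) : C₀(X, ℂ) →⋆ₙₐ[ℂ] C(Z, ℂ) where
  toFun ψ := ⟨Function.extend c ψ 0, continuous_extend hc ψ⟩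
  map_smul' a ψ := by
    ext z
    by_cases hz : z ∈ range c
    · obtain ⟨x, rfl⟩ := hz
      simp [hc.injective.extend_apply]
    · simp [Function.extend_apply' _ _ _ hz]
  map_zero' := by
    ext z
    by_cases hz : z ∈ range c
    · obtain ⟨x, rfl⟩ := hz
      simp [hc.injective.extend_apply]
    · simp [Function.extend_apply' _ _ _ hz]
  map_add' ψ φ := by
    ext z
    by_cases hz : z ∈ range c
    · obtain ⟨x, rfl⟩ := hz
      simp [hc.injective.extend_apply]
    · simp [Function.extend_apply' _ _ _ hz]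
  map_mul' ψ φ := by
    ext z
    by_cases hz : z ∈ range c
    · obtain ⟨x, rfl⟩ := hz
      simp [hc.injective.extend_apply]
    · simp [Function.extend_apply' _ _ _ hz]
  map_star' ψ := by
    ext z
    by_cases hz : z ∈ range c
    · obtain ⟨x, rfl⟩ := hz
      simp [hc.injective.extend_apply]
    · simp [Function.extend_apply' _ _ _ hz]

theorem ext_apply (hc : IsOpenEmbedding c) (ψ : C₀(X, ℂ)) (x : X) : ext hc ψ (c x) = ψ x :=
  hc.injective.extend_apply _ _ _

theorem ext_zero (hc : IsOpenEmbedding c) (ψ : C₀(X, ℂ)) {z : Z} (hz : z ∉ range c) :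
    ext hc ψ z = 0 := Function.extend_apply' _ _ _ hz

theorem ext_surj (hc : IsOpenEmbedding c) (f : C(Z, ℂ)) (hf : ∀ z, z ∉ range c → f z = 0) :
    ∃ ψ : C₀(X, ℂ), ext hc ψ = f := by
  refine ⟨⟨⟨fun x => f (c x), f.continuous.comp hc.continuous⟩, ?_⟩, ?_⟩
  · rw [Metric.tendsto_nhds]
    intro ε hε
    rw [Filter.Eventually, mem_cocompact]
    have hcl : IsClosed {z | ε ≤ ‖f z‖} := isClosed_le continuous_const f.continuous.norm
    have hsub : {z | ε ≤ ‖f z‖} ⊆ range c := by
      intro z hz
      by_contra hr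
      have h1 : ε ≤ ‖f z‖ := hz
      rw [hf z hr, norm_zero] at h1
      exact absurd h1 (not_le.2 hε)
    refine ⟨c ⁻¹' {z | ε ≤ ‖f z‖}, (hc.isInducing.isCompact_preimage_iff hsub).2 hcl.isCompact,
      fun x hx => ?_⟩
    have h2 : ¬ ε ≤ ‖f (c x)‖ := hx
    change dist (f (c x)) 0 < ε
    rw [dist_zero_right]
    exact not_le.1 h2
  · ext z
    by_cases hz : z ∈ range c
    · obtain ⟨x, rfl⟩ := hz
      rw [ext_apply]
      rfl
    · rw [ext_zero hc _ hz, hf z hz]

end ext

end Vale.Agent.P092.H171
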