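import Vale.Agent.P092.H171.Ch

/-!
P092, TEAM N, [N-XCE], END half (helper171), abstract part: a nondegenerate calculus of `C₀(G)` is
determined by the positions of a frame; from the positions of ALL points one gets the right
covariance under every operator which permutes the points.
-/

set_option linter.all false

namespace Vale.Agent.P092.H171

open MeasureTheory Topology TopologicalSpace Filter Set ContinuousLinearMap
open Vale.Agent.P092.H466
open scoped InnerProductSpace ZeroAtInfty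

section eqq

variable {G : Type*} [TopologicalSpace G]
  {P : Type*} [TopologicalSpace P] [CompactSpace P] [MetrizableSpace P]
  [SecondCountableTopology P] [MeasurableSpace P] [BorelSpace P]
  {ι : Type*} [Finite ι]
  {K : Type*} [NormedAddCommGroup K] [InnerProductSpace ℂ K] [CompleteSpace K]
  {c : G → ι → P} (hc : IsOpenEmbedding c) {Φ : C(ι → P, ℂ) →⋆ₐ[ℂ] (K →L[ℂ] K)}
  (Q : C₀(G, ℂ) →⋆ₙₐ[ℂ] (K →L[ℂ] K))

theorem cont_Q : Continuous Q := by
  refine AddMonoidHomClass.continuous_of_bound Q 1 fun ψ => ?_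
  rw [one_mul]
  exact NonUnitalStarAlgHom.norm_apply_le Q ψ

theorem cont_bmul (ψ : C₀(G, ℂ)) : Continuous fun F : C(ι → P, ℂ) => bmul hc F ψ := by
  have hlin : ∀ F F' : C(ι → P, ℂ), bmul hc (F - F') ψ = bmul hc F ψ - bmul hc F' ψ := by
    intro F F'
    ext g
    change (F - F') (c g) * ψ g = F (c g) * ψ g - F' (c g) * ψ g
    rw [ContinuousMap.sub_apply, sub_mul]
  have hb : ∀ F : C(ι → P, ℂ), ‖bmul hc F ψ‖ ≤ ‖F‖ * ‖ψ‖ := by
    intro F
    rw [← ZeroAtInftyContinuousMap.norm_toBCF_eq_norm,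
      BoundedContinuousFunction.norm_le (by positivity)]
    intro g
    change ‖F (c g) * ψ g‖ ≤ _
    rw [norm_mul]
    exact mul_le_mul (F.norm_coe_le_norm _) (ψ.toBCF.norm_coe_le_norm _) (norm_nonneg _)
      (norm_nonneg _)
  rw [Metric.continuous_iff]
  intro F ε hε
  refine ⟨ε / (‖ψ‖ + 1), by positivity, fun F' hF' => ?_⟩
  rw [dist_eq_norm, ← hlin]
  rw [dist_eq_norm] at hF'
  have h1 : 0 < ‖ψ‖ + 1 := by positivity
  calc ‖bmul hc (F' - F) ψ‖ ≤ ‖F' - F‖ * ‖ψ‖ := hb _
    _ ≤ ‖F' - F‖ * (‖ψ‖ + 1) := by gcongr; linarith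
    _ < ε / (‖ψ‖ + 1) * (‖ψ‖ + 1) := by gcongr
    _ = ε := div_mul_cancel₀ _ h1.ne'

variable (hp : ∀ i, Pos Q (fun f => Φ (co i f)) fun g => c g i)
include hp

/-- functions of the frame act by multiplication -/
theorem frame_mul' (F : C(ι → P, ℂ)) : ∀ ψ, Φ F * Q ψ = Q (bmul hc F ψ) := by
  refine co_induction (fun F => ∀ ψ, Φ F * Q ψ = Q (bmul hc F ψ)) ?_ ?_ ?_ ?_ ?_ F
  · have e : {F : C(ι → P, ℂ) | ∀ ψ, Φ F * Q ψ = Q (bmul hc F ψ)} =
        ⋂ ψ, {F | Φ F * Q ψ = Q (bmul hc F ψ)} := by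
      ext F
      simp
    rw [e]
    refine isClosed_iInter fun ψ => isClosed_eq ?_ ?_
    · exact (cont_hom Φ).mul continuous_const
    · exact (cont_Q Q).comp (cont_bmul hc ψ)
  · intro i f ψ
    exact hp i f ψ _ fun g => rfl
  · intro a ψ
    have e : bmul hc (algebraMap ℂ C(ι → P, ℂ) a) ψ = a • ψ := by
      ext g
      change a * ψ g = a • ψ g
      rw [smul_eq_mul]
    rw [e, map_smul, AlgHomClass.commutes, Algebra.algebraMap_eq_smul_one, smul_mul_assoc, one_mul]
  · intro F F' h h' ψ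
    have e : bmul hc (F + F') ψ = bmul hc F ψ + bmul hc F' ψ := by
      ext g
      change (F + F') (c g) * ψ g = F (c g) * ψ g + F' (c g) * ψ g
      rw [ContinuousMap.add_apply, add_mul]
    rw [e, map_add, map_add, add_mul, h, h']
  · intro F F' h h' ψ
    have e : bmul hc (F * F') ψ = bmul hc F (bmul hc F' ψ) := by
      ext g
      change (F * F') (c g) * ψ g = F (c g) * (F' (c g) * ψ g)
      rw [ContinuousMap.mul_apply, mul_assoc]
    rw [e, map_mul, mul_assoc, h', h]

variable (nd : ∀ ξ, (∀ ψ, Q ψ ξ = 0) → ξ = 0)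
include hc nd

/-- **uniqueness**: a nondegenerate calculus is determined by the positions of the frame -/
theorem eq_Qg : Q = Qg hc Φ := by
  ext ψ₀ ξ
  rw [← sub_eq_zero]
  have h1 : ∀ ψ, Q ψ * Q ψ₀ = Q ψ * Φ (ext hc ψ₀) := by
    intro ψ
    have h2 := frame_mul' hc Q hp (ext hc (star ψ₀)) (star ψ)
    have e : bmul hc (ext hc (star ψ₀)) (star ψ) = star ψ₀ * star ψ := by
      ext g
      change ext hc (star ψ₀) (c g) * star ψ g = star ψ₀ g * star ψ g
      rw [ext_apply]
    rw [e, map_mul] at h2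
    have h3 := congrArg star h2
    rw [star_mul, star_mul, ← map_star, ← map_star, ← map_star, ← map_star, star_star,
      star_star] at h3
    exact h3.symm
  refine nd _ fun ψ => ?_
  have h2 := DFunLike.congr_fun (h1 ψ) ξ
  rw [map_sub, ← mul_apply_eq_comp, ← mul_apply_eq_comp, h2, Qg_apply, sub_self]

/-- almost every frame is in the range of the frame map -/
theorem ae_range (ξ : K) : ∀ᵐ z ∂(ms Φ ξ), z ∈ range c := by
  have hm : MeasurableSet (range c)ᶜ := hc.isOpen_range.measurableSet.compl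
  have h1 : pv Φ (range c)ᶜ ξ = 0 := by
    refine nd _ fun ψ => ?_
    rw [eq_Qg hc Q hp nd, Qg_apply, ← mul_apply_eq_comp]
    rw [phi_pv_congr Φ (f := ext hc ψ) (g := 0) (A := (range c)ᶜ) (fun z hz => ?_)]
    · rw [map_zero, zero_mul, ContinuousLinearMap.zero_apply]
    · rw [ext_zero hc _ hz, ContinuousMap.zero_apply]
  have h2 := enorm_pv_sq Φ hm ξ
  rw [h1] at h2
  have h3 : ms Φ ξ (range c)ᶜ = 0 := by rw [← h2]; simp
  filter_upwards [measure_eq_zero_iff_ae_notMem.1 h3] with z hz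
  by_contra hcon
  exact hz hcon

end eqq

section all

variable {G : Type*} [TopologicalSpace G] [Group G] [IsTopologicalGroup G]
  {P : Type*} [TopologicalSpace P] [CompactSpace P] [MetrizableSpace P]
  [SecondCountableTopology P] [MeasurableSpace P] [BorelSpace P]
  {ι : Type*} [Finite ι]
  {K : Type*} [NormedAddCommGroup K] [InnerProductSpace ℂ K] [CompleteSpace K]
  {c : G → ι → P} (hc : IsOpenEmbedding c)
  {A : Type*} {E : A → (C(P, ℂ) →⋆ₐ[ℂ] (K →L[ℂ] K))}
  (hcomm : ∀ a b f g, Commute (E a f) (E b g)) {s : ι → A} {p : A → G → P}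
  (hs : ∀ i g, p (s i) g = c g i)
  (Q : C₀(G, ℂ) →⋆ₙₐ[ℂ] (K →L[ℂ] K)) (nd : ∀ ξ, (∀ ψ, Q ψ ξ = 0) → ξ = 0)
  (hp : ∀ a, Pos Q (E a) (p a))

include hc hcomm hs nd hp

/-- **right covariance**: an operator which permutes the points, the permutation is `p`-covariant
with the right translation by `x` -/
theorem rt_all {U V : K →L[ℂ] K} (hUV : U * V = 1) (hVU : V * U = 1) {x : G} {s' : ι → A}
    (hU : ∀ i f, U * E (s i) f * V = E (s' i) f) (hx : ∀ i g, p (s' i) g = c (g * x) i) :
    Rt Q U V x := by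
  obtain ⟨Φ, hΦ⟩ := exists_joint (fun i => E (s i)) (fun i j f g => hcomm _ _ f g)
  have hp' : ∀ i, Pos Q (fun f => Φ (co i f)) fun g => c g i := by
    intro i
    have e1 : (fun f => Φ (co i f)) = E (s i) := by
      funext f
      exact hΦ i f
    have e2 : (fun g => c g i) = p (s i) := by
      funext g
      rw [hs]
    rw [e1, e2]
    exact hp _
  have hQ : Q = Qg hc Φ := eq_Qg hc Q hp' nd
  have hr := ae_range hc Q hp' nd
  have h1 := right_of_pos hc hcomm hΦ hr hUV hVU hU (x := x) (by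
    intro i
    have e : (fun g => c (g * x) i) = p (s' i) := by
      funext g
      rw [hx]
    rw [e, ← hQ]
    exact hp _)
  rw [hQ]
  exact h1

/-- **generation** -/
theorem comm_all' {T : K →L[ℂ] K} (hT : ∀ i f, Commute T (E (s i) f)) (ψ : C₀(G, ℂ)) :
    Commute T (Q ψ) := by
  obtain ⟨Φ, hΦ⟩ := exists_joint (fun i => E (s i)) (fun i j f g => hcomm _ _ f g)
  have hp' : ∀ i, Pos Q (fun f => Φ (co i f)) fun g => c g i := by
    intro i
    have e1 : (fun f => Φ (co i f)) = E (s i) := by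
      funext f
      exact hΦ i f
    have e2 : (fun g => c g i) = p (s i) := by
      funext g
      rw [hs]
    rw [e1, e2]
    exact hp _
  rw [eq_Qg hc Q hp' nd]
  exact Qg_comm hc (fun i f => by rw [hΦ]; exact hT i f) ψ

end all

end Vale.Agent.P092.H171
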