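import Vale.Agent.P092.H171.Ej
import Vale.Agent.P092.H171.Ext
import Vale.Agent.P092.H171.Zo

/-!
P092, TEAM N, block [N-CLS] (helper171, second seat): the operator part, for every group `G` whose
orbit map on a frame is an open embedding (`PGL_n(k)`: `H789.isOpenEmbedding_cmap`).
-/

set_option linter.all false

namespace Vale.Agent.P092.H171

open MeasureTheory Topology TopologicalSpace Filter Set ContinuousLinearMap
open Vale.Agent.P092.H466
open scoped InnerProductSpace ZeroAtInfty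

/-- a separating family decides almost everywhere equality -/
theorem ae_eq_of_sep {Z : Type*} [MeasurableSpace Z] {μ : Measure Z} {P : Type*}
    [TopologicalSpace P] [MetrizableSpace P] [SecondCountableTopology P] {α β : Z → P}
    {D : Z → Prop} (h : ∀ f : C(P, ℂ), ∀ᵐ z ∂μ, D z → f (α z) = f (β z)) :
    ∀ᵐ z ∂μ, D z → α z = β z := by
  have hb := isBasis_countableBasis P
  have hcb := countable_countableBasis P
  have h1 : ∀ᵐ z ∂μ, ∀ U ∈ countableBasis P, D z → α z ∈ U → β z ∈ U := by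
    refine (ae_ball_iff hcb).2 fun U hU => ?_
    obtain ⟨f, hf⟩ := exists_pos_on (hb.isOpen hU)
    filter_upwards [h f] with z hz hD hα
    by_contra hβ
    have h2 : f (β z) = 0 := (hf _).2 hβ
    rw [← hz hD] at h2
    exact (hf _).1 h2 hα
  filter_upwards [h1] with z hz hD
  by_contra hne
  have hop : IsOpen ({β z}ᶜ : Set P) := isClosed_singleton.isOpen_compl
  obtain ⟨U, hU, hpU, hUs⟩ := hb.exists_subset_of_mem_open
    (show α z ∈ ({β z}ᶜ : Set P) from fun h => hne h) hop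
  exact hUs (hz U hU hD hpU) rfl

section core

variable {G : Type*} [TopologicalSpace G]
  {P : Type*} [TopologicalSpace P] [CompactSpace P] [MetrizableSpace P]
  [SecondCountableTopology P] [MeasurableSpace P] [BorelSpace P]
  {ι : Type*} [Finite ι]
  {K : Type*} [NormedAddCommGroup K] [InnerProductSpace ℂ K] [CompleteSpace K]
  {c : G → ι → P} (hc : IsOpenEmbedding c)

/-- the calculus of the group: `Q ψ = Φ (ψ ∘ c⁻¹)` -/
noncomputable def Qg (hc : IsOpenEmbedding c) (Φ : C(ι → P, ℂ) →⋆ₐ[ℂ] (K →L[ℂ] K)) :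
    C₀(G, ℂ) →⋆ₙₐ[ℂ] (K →L[ℂ] K) where
  toFun ψ := Φ (ext hc ψ)
  map_smul' a ψ := by rw [map_smul, map_smul]; rfl
  map_zero' := by rw [map_zero, map_zero]
  map_add' ψ φ := by rw [map_add, map_add]
  map_mul' ψ φ := by rw [map_mul, map_mul]
  map_star' ψ := by rw [map_star, map_star]

theorem Qg_apply (Φ : C(ι → P, ℂ) →⋆ₐ[ℂ] (K →L[ℂ] K)) (ψ : C₀(G, ℂ)) :
    Qg hc Φ ψ = Φ (ext hc ψ) := rfl

/-- the calculus `φ` has the position `θ`: its value is `θ g` -/
def Pos (Q : C₀(G, ℂ) → (K →L[ℂ] K)) (φ : C(P, ℂ) → (K →L[ℂ] K)) (θ : G → P) : Prop :=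
  ∀ (f : C(P, ℂ)) (ψ ψ' : C₀(G, ℂ)), (∀ g, ψ' g = f (θ g) * ψ g) → φ f * Q ψ = Q ψ'

variable {Φ : C(ι → P, ℂ) →⋆ₐ[ℂ] (K →L[ℂ] K)}

/-- functions of the frame act by multiplication -/
theorem frame_mul (F : C(ι → P, ℂ)) (ψ ψ' : C₀(G, ℂ)) (h : ∀ g, ψ' g = F (c g) * ψ g) :
    Φ F * Qg hc Φ ψ = Qg hc Φ ψ' := by
  rw [Qg_apply, Qg_apply, ← map_mul]
  congr 1
  ext z
  rw [ContinuousMap.mul_apply]
  by_cases hz : z ∈ range c
  · obtain ⟨g, rfl⟩ := hz
    rw [ext_apply, ext_apply, h]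
  · rw [ext_zero hc _ hz, ext_zero hc _ hz, mul_zero]

theorem pos_frame (i : ι) : Pos (Qg hc Φ) (fun f => Φ (co i f)) fun g => c g i := by
  intro f ψ ψ' h
  exact frame_mul hc (co i f) ψ ψ' h

/-- multiplication of `C₀` by a function of the frame -/
noncomputable def bmul (hc : IsOpenEmbedding c) (F : C(ι → P, ℂ)) (ψ : C₀(G, ℂ)) : C₀(G, ℂ) where
  toFun g := F (c g) * ψ g
  continuous_toFun := (F.continuous.comp hc.continuous).mul ψ.continuous
  zero_at_infty' := by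
    have h1 := ψ.zero_at_infty'
    rw [tendsto_zero_iff_norm_tendsto_zero] at h1 ⊢
    have h2 : Tendsto (fun g => ‖F‖ * ‖ψ g‖) (cocompact G) (𝓝 0) := by
      have := h1.const_mul ‖F‖
      rw [mul_zero] at this
      exact this
    refine squeeze_zero (fun g => norm_nonneg _) (fun g => ?_) h2
    rw [norm_mul]
    exact mul_le_mul_of_nonneg_right (F.norm_coe_le_norm _) (norm_nonneg _)

/-- a function of `C₀` without zeros -/
theorem exists_nz (hc : IsOpenEmbedding c) : ∃ ψ : C₀(G, ℂ), ∀ g, ψ g ≠ 0 := by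
  obtain ⟨f, hf⟩ := exists_pos_on (X := ι → P) hc.isOpen_range
  obtain ⟨ψ, hψ⟩ := ext_surj hc f fun z hz => (hf z).2 hz
  refine ⟨ψ, fun g h0 => ?_⟩
  rw [← ext_apply hc, hψ] at h0
  exact (hf _).1 h0 ⟨g, rfl⟩

/-- functions times a nowhere zero function of `C₀`, for a continuous position -/
theorem exists_mul {θ : G → P} (hθ : Continuous θ) (f : C(P, ℂ)) (ψ : C₀(G, ℂ)) :
    ∃ ψ' : C₀(G, ℂ), ∀ g, ψ' g = f (θ g) * ψ g := by
  refine ⟨⟨⟨fun g => f (θ g) * ψ g, (f.continuous.comp hθ).mul ψ.continuous⟩, ?_⟩, fun g => rfl⟩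
  have h1 := ψ.zero_at_infty'
  rw [tendsto_zero_iff_norm_tendsto_zero] at h1 ⊢
  have h2 : Tendsto (fun g => ‖f‖ * ‖ψ g‖) (cocompact G) (𝓝 0) := by
    have := h1.const_mul ‖f‖
    rw [mul_zero] at this
    exact this
  refine squeeze_zero (fun g => norm_nonneg _) (fun g => ?_) h2
  change ‖f (θ g) * ψ g‖ ≤ _
  rw [norm_mul]
  exact mul_le_mul_of_nonneg_right (f.norm_coe_le_norm _) (norm_nonneg _)

variable (hr : ∀ ξ, ∀ᵐ z ∂(ms Φ ξ), z ∈ range c)

include hr

/-- **nondegenerate** -/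
theorem Qg_nd {ξ : K} (h : ∀ ψ, Qg hc Φ ψ ξ = 0) : ξ = 0 := by
  obtain ⟨f, hf⟩ := exists_pos_on (X := ι → P) hc.isOpen_range
  obtain ⟨ψ, hψ⟩ := ext_surj hc f fun z hz => (hf z).2 hz
  refine nd_of_ne Φ (f := f) ?_ ?_
  · filter_upwards [hr ξ] with z hz h0
    exact (hf z).1 h0 hz
  · have := h ψ
    rw [Qg_apply, hψ] at this
    exact this

/-- operators are determined on the range of `Q` -/
theorem Qg_cancel {S T : K →L[ℂ] K} (h : ∀ ψ, S * Qg hc Φ ψ = T * Qg hc Φ ψ) : S = T := by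
  have h1 : ∀ ξ, adjoint S ξ = adjoint T ξ := by
    intro ξ
    rw [← sub_eq_zero]
    refine Qg_nd hc hr fun ψ => ?_
    have h2 := h (star ψ)
    have h3 : star (S * Qg hc Φ (star ψ)) = star (T * Qg hc Φ (star ψ)) := by rw [h2]
    rw [star_mul, star_mul, map_star, star_star, star_eq_adjoint, star_eq_adjoint] at h3
    have h4 := DFunLike.congr_fun h3 ξ
    rw [mul_apply_eq_comp, mul_apply_eq_comp] at h4
    rw [map_sub, h4, sub_self]
  have h5 : adjoint S = adjoint T := by ext ξ; exact h1 ξ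
  calc S = adjoint (adjoint S) := (adjoint_adjoint S).symm
    _ = adjoint (adjoint T) := by rw [h5]
    _ = T := adjoint_adjoint T

/-- **from the law to the position** -/
theorem pos_of_ae {κ : Type*} [Finite κ] {Ψ : C(κ → P, ℂ) →⋆ₐ[ℂ] (K →L[ℂ] K)} {r : ι → κ}
    (hΨ : ∀ i f, Ψ (co (r i) f) = Φ (co i f)) {j : κ} {φ : C(P, ℂ) → (K →L[ℂ] K)}
    (hj : ∀ f, Ψ (co j f) = φ f) {θ : G → P}
    (h : ∀ ξ, ∀ᵐ z ∂(ms Ψ ξ), ∀ g, (∀ i, z (r i) = c g i) → z j = θ g) :
    Pos (Qg hc Φ) φ θ := by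
  intro f ψ ψ' hψ
  let R : C(κ → P, ι → P) := ⟨fun z i => z (r i), by fun_prop⟩
  have e : Ψ.comp (R.compStarAlgHom' ℂ ℂ) = Φ := by
    refine hom_uniq fun i f => ?_
    exact hΨ i f
  have e2 : ∀ F, Φ F = Ψ (F.comp R) := fun F => by rw [← e]; rfl
  rw [Qg_apply, Qg_apply, ← hj, e2, e2, ← map_mul]
  refine phi_congr_ae Ψ fun ξ => ?_
  have h1 : ∀ᵐ z ∂(ms Ψ ξ), R z ∈ range c := by
    refine ae_restr Ψ R ξ (p := fun y => y ∈ range c) ?_
    rw [e]
    exact hr ξ
  filter_upwards [h1, h ξ] with z hz hz2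
  obtain ⟨g, hg⟩ := hz
  rw [ContinuousMap.mul_apply, co_apply, ContinuousMap.comp_apply, ContinuousMap.comp_apply, ← hg,
    ext_apply, ext_apply, hψ, hz2 g fun i => (congrFun hg i).symm]

/-- **from the position to the law** -/
theorem ae_of_pos {κ : Type*} [Finite κ] {Ψ : C(κ → P, ℂ) →⋆ₐ[ℂ] (K →L[ℂ] K)} {r : ι → κ}
    (hΨ : ∀ i f, Ψ (co (r i) f) = Φ (co i f)) {j : κ} {φ : C(P, ℂ) → (K →L[ℂ] K)}
    (hj : ∀ f, Ψ (co j f) = φ f) {θ : G → P} (hθ : Continuous θ) (h : Pos (Qg hc Φ) φ θ) (ξ : K) :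
    ∀ᵐ z ∂(ms Ψ ξ), ∀ g, (∀ i, z (r i) = c g i) → z j = θ g := by
  let R : C(κ → P, ι → P) := ⟨fun z i => z (r i), by fun_prop⟩
  have e : Ψ.comp (R.compStarAlgHom' ℂ ℂ) = Φ := by
    refine hom_uniq fun i f => ?_
    exact hΨ i f
  have e2 : ∀ F, Φ F = Ψ (F.comp R) := fun F => by rw [← e]; rfl
  obtain ⟨ψ, hψ⟩ := exists_nz hc
  have hin : ∀ g g' : G, (∀ i, c g i = c g' i) → g = g' := fun g g' h => hc.injective (funext h)
  classical
  let inv : (κ → P) → P := fun z => if h : R z ∈ range c then θ h.choose else z j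
  have hinv : ∀ z g, (∀ i, z (r i) = c g i) → inv z = θ g := by
    intro z g hz
    have h1 : R z ∈ range c := ⟨g, (funext hz).symm⟩
    have h2 : inv z = θ h1.choose := dif_pos h1
    rw [h2]
    congr 1
    refine hin _ _ fun i => ?_
    rw [h1.choose_spec]
    exact hz i
  have h1 : ∀ f : C(P, ℂ), ∀ᵐ z ∂(ms Ψ ξ), (R z ∈ range c) → f (z j) = f (inv z) := by
    intro f
    obtain ⟨ψ', hψ'⟩ := exists_mul hθ f ψ
    have h2 := h f ψ ψ' hψ'
    rw [Qg_apply, Qg_apply, ← hj, e2, e2, ← map_mul, ← sub_eq_zero, ← map_sub] at h2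
    have h3 := norm_phi_pv_sq Ψ MeasurableSet.univ
      (co j f * (ext hc ψ).comp R - (ext hc ψ').comp R) ξ
    rw [pv_univ, one_apply_eq_self, h2, ContinuousLinearMap.zero_apply, norm_zero,
      Measure.restrict_univ] at h3
    have h4 : (fun x => ‖(co j f * (ext hc ψ).comp R - (ext hc ψ').comp R) x‖ ^ 2)
        =ᵐ[ms Ψ ξ] 0 := by
      refine (integral_eq_zero_iff_of_nonneg (fun x => by positivity) ?_).1 ?_
      · exact (((map_continuous _).norm.pow 2).integrable_of_hasCompactSupport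
          (HasCompactSupport.of_compactSpace _))
      · rw [← h3]; norm_num
    filter_upwards [h4] with z hz hzr
    obtain ⟨g, hg⟩ := hzr
    have h5 : (co j f * (ext hc ψ).comp R - (ext hc ψ').comp R) z = 0 := by simpa using hz
    rw [ContinuousMap.sub_apply, ContinuousMap.mul_apply, ContinuousMap.comp_apply,
      ContinuousMap.comp_apply, co_apply, ← hg, ext_apply, ext_apply, hψ', ← sub_mul] at h5
    rcases mul_eq_zero.1 h5 with h6 | h6
    · rw [hinv z g fun i => (congrFun hg i).symm]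
      exact sub_eq_zero.1 h6
    · exact absurd h6 (hψ g)
  filter_upwards [ae_eq_of_sep (D := fun z => R z ∈ range c) h1] with z hz g hg
  rw [hz ⟨g, (funext hg).symm⟩, hinv z g hg]

/-- something that happens almost everywhere happens somewhere -/
theorem exists_of_ae [Nontrivial K] {p : G → Prop}
    (h : ∀ ξ, ∀ᵐ z ∂(ms Φ ξ), ∀ g, z = c g → p g) : ∃ g, p g := by
  obtain ⟨ξ, hξ⟩ := exists_ne (0 : K)
  by_contra hcon
  push Not at hcon
  have h1 : ∀ᵐ z ∂(ms Φ ξ), False := by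
    filter_upwards [hr ξ, h ξ] with z hz hz2
    obtain ⟨g, hg⟩ := hz
    exact hcon g (hz2 g hg.symm)
  have h5 : ms Φ ξ univ = 0 :=
    measure_eq_zero_iff_ae_notMem.2 (h1.mono fun z hz => hz.elim)
  have h6 := ms_univ Φ ξ
  rw [Measure.real, h5] at h6
  exact hξ (by simpa using h6.symm)

/-- **two positions agree somewhere** -/
theorem pos_uniq [Nontrivial K] {φ : C(P, ℂ) → (K →L[ℂ] K)} {θ θ' : G → P} (hθ : Continuous θ)
    (hθ' : Continuous θ') (h : Pos (Qg hc Φ) φ θ) (h' : Pos (Qg hc Φ) φ θ') :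
    ∃ g, θ g = θ' g := by
  obtain ⟨ψ, hψ⟩ := exists_nz hc
  obtain ⟨g₀, -⟩ := exists_of_ae hr (p := fun _ => True)
    fun ξ => Eventually.of_forall fun z g hg => trivial
  haveI : Nonempty G := ⟨g₀⟩
  have hinv : ∀ g, Function.invFun c (c g) = g := fun g => Function.leftInverse_invFun hc.injective g
  refine exists_of_ae hr fun ξ => ?_
  have h1 : ∀ f : C(P, ℂ), ∀ᵐ z ∂(ms Φ ξ), z ∈ range c →
      f (θ (Function.invFun c z)) = f (θ' (Function.invFun c z)) := by
    intro f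
    obtain ⟨ψ1, h1⟩ := exists_mul hθ f ψ
    obtain ⟨ψ2, h2⟩ := exists_mul hθ' f ψ
    have e1 := h f ψ ψ1 h1
    have e2 := h' f ψ ψ2 h2
    rw [e1, Qg_apply, Qg_apply, ← sub_eq_zero, ← map_sub] at e2
    have h3 := norm_phi_pv_sq Φ MeasurableSet.univ (ext hc ψ1 - ext hc ψ2) ξ
    rw [pv_univ, one_apply_eq_self, e2, ContinuousLinearMap.zero_apply, norm_zero,
      Measure.restrict_univ] at h3
    have h4 : (fun x => ‖(ext hc ψ1 - ext hc ψ2) x‖ ^ 2) =ᵐ[ms Φ ξ] 0 := by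
      refine (integral_eq_zero_iff_of_nonneg (fun x => by positivity) ?_).1 ?_
      · exact (((map_continuous _).norm.pow 2).integrable_of_hasCompactSupport
          (HasCompactSupport.of_compactSpace _))
      · rw [← h3]; norm_num
    filter_upwards [h4] with z hz hzr
    obtain ⟨g, rfl⟩ := hzr
    have h5 : (ext hc ψ1 - ext hc ψ2) (c g) = 0 := by simpa using hz
    rw [ContinuousMap.sub_apply, ext_apply, ext_apply, h1, h2, ← sub_mul] at h5
    rcases mul_eq_zero.1 h5 with h6 | h6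
    · rw [hinv]
      exact sub_eq_zero.1 h6
    · exact absurd h6 (hψ g)
  filter_upwards [ae_eq_of_sep (D := fun z => z ∈ range c) h1] with z hz g hg
  have h2 := hz ⟨g, hg.symm⟩
  rw [hg, hinv] at h2
  exact h2

end core

end Vale.Agent.P092.H171
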