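import Vale.Agent.P092.SD.Defs

/-!
P092, TEAM D, block [D-CLS] / [XC-7] (helper171), literal: the classical leg. `Q ψ` is the function
`ψ(g)` of the classical position `g ∈ SL_3(ℝ)` of the leg; `E a f = f(g a)`, `F l f = f(g l)`.
Only definitions.
-/

set_option linter.all false

open scoped InnerProductSpace ZeroAtInfty
open ContinuousLinearMap

namespace Vale.Agent.P092.H171

open Vale.Agent.P092.SD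
open Vale.Agent.P092.H820 (inc3)

/-- A classical leg. -/
structure Cls {K : Type} [NormedAddCommGroup K] [InnerProductSpace ℂ K] [CompleteSpace K]
    (π : G3 ℝ →* (K →L[ℂ] K)) (E F : PP ℝ → (CP ℝ →⋆ₐ[ℂ] (K →L[ℂ] K)))
    (Q : C₀(G3 ℝ, ℂ) →⋆ₙₐ[ℂ] (K →L[ℂ] K)) : Prop where
  /-- nondegenerate -/
  nd : ∀ ξ, (∀ ψ, Q ψ ξ = 0) → ξ = 0
  mulE : ∀ a f (ψ ψ' : C₀(G3 ℝ, ℂ)), (∀ g, ψ' g = f (g • a) * ψ g) → E a f * Q ψ = Q ψ'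
  mulF : ∀ l f (ψ ψ' : C₀(G3 ℝ, ℂ)), (∀ g, ψ' g = f (tau ℝ g • l) * ψ g) → F l f * Q ψ = Q ψ'
  right : ∀ h (ψ ψ' : C₀(G3 ℝ, ℂ)), (∀ g, ψ' g = ψ (g * h)) → π h * Q ψ * π h⁻¹ = Q ψ'
  left : ∀ (γ : G3 ℝ) (U V : K →L[ℂ] K), U * V = 1 → V * U = 1 →
    (∀ a f, U * E a f * V = E a (act γ f)) →
    ∀ ψ ψ' : C₀(G3 ℝ, ℂ), (∀ g, ψ' g = ψ (γ⁻¹ * g)) → U * Q ψ * V = Q ψ'
  gen : ∀ T : K →L[ℂ] K, (∀ a f, Commute T (E a f)) → ∀ ψ, Commute T (Q ψ)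

/-- [D-CLS]: a commuting quantum plane is classical. -/
def ClsStmt : Prop :=
  ∀ {K : Type} [NormedAddCommGroup K] [InnerProductSpace ℂ K] [CompleteSpace K]
    (π : G3 ℝ →* (K →L[ℂ] K)) (E F : PP ℝ → (CP ℝ →⋆ₐ[ℂ] (K →L[ℂ] K))),
    (∀ g ξ, ‖π g ξ‖ = ‖ξ‖) → (∀ ξ, Continuous fun g => π g ξ) →
    (∀ g a f, π g * E a f * π g⁻¹ = E (g • a) f) →
    (∀ g l f, π g * F l f * π g⁻¹ = F (tau ℝ g • l) f) →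
    (∀ a l, (a, l) ∈ inc3 (k := ℝ) → Supp (E a) (F l)) →
    (∀ a b, a ≠ b → ∀ ξ, (∀ f, E a f ξ = E b f ξ) → ξ = 0) →
    (∀ a b, a ≠ b → ∀ ξ, (∀ f, F a f ξ = F b f ξ) → ξ = 0) →
    (∀ a b f h, Commute (E a f) (E b h)) → (∀ a b f h, Commute (E a f) (F b h)) →
    (∀ a b f h, Commute (F a f) (F b h)) →
    ∃ Q : C₀(G3 ℝ, ℂ) →⋆ₙₐ[ℂ] (K →L[ℂ] K), Cls π E F Q

end Vale.Agent.P092.H171
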