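import Vale.Agent.P092.H171.Ej
import Vale.Agent.P092.H171.Ext
import Vale.Agent.P092.H171.Cl
import Vale.Agent.P092.H941.Ruler
import Vale.Agent.P092.SD.Blocks

/-!
P092, TEAM D, block [D-CLS] (helper171): a commuting quantum plane over `ℝ` is classical.
-/

set_option linter.all false

open scoped InnerProductSpace ZeroAtInfty
open ContinuousLinearMap MeasureTheory Topology TopologicalSpace Filter

namespace Vale.Agent.P092.H171

open Vale.Agent.P092.SD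
open Vale.Agent.P092.H820 (inc3 pj_oq pj_open pj)
open Vale.Agent.P092.H466 (ms integral_ms integrable_ms)
open Vale.Agent.P092.H941.FrD

section inst

theorem sec_pp : SecondCountableTopology (PP ℝ) :=
  (pj_oq (k := ℝ) (ι := Fin 3)).isQuotientMap.secondCountableTopology pj_open

end inst

attribute [local instance] sec_pp

theorem sec_G3 : SecondCountableTopology (G3 ℝ) := by
  haveI : SecondCountableTopology (Matrix (Fin 3) (Fin 3) ℝ) :=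
    inferInstanceAs (SecondCountableTopology (Fin 3 → Fin 3 → ℝ))
  exact TopologicalSpace.Subtype.secondCountableTopology
    {A : Matrix (Fin 3) (Fin 3) ℝ | A.det = 1}

/-- local measurable structure -/
noncomputable local instance mpp : MeasurableSpace (PP ℝ) := borel _

local instance bpp : BorelSpace (PP ℝ) := ⟨rfl⟩

section core

variable {K : Type} [NormedAddCommGroup K] [InnerProductSpace ℂ K] [CompleteSpace K]

/-- points and lines together -/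
noncomputable def EF (E F : PP ℝ → (CP ℝ →⋆ₐ[ℂ] (K →L[ℂ] K))) (s : PP ℝ ⊕ PP ℝ) :
    CP ℝ →⋆ₐ[ℂ] (K →L[ℂ] K) := Sum.elim E F s

/-- restriction to the frame -/
def fr : C(Ix → PP ℝ, Fin 4 → PP ℝ) := ⟨fun z i => z (.inl i), by fun_prop⟩

/-- the calculus of the frame, on the group -/
noncomputable def Qc (Φ : C(Fin 4 → PP ℝ, ℂ) →⋆ₐ[ℂ] (K →L[ℂ] K)) :
    C₀(G3 ℝ, ℂ) →⋆ₙₐ[ℂ] (K →L[ℂ] K) where
  toFun ψ := Φ (ext isOpenEmbedding_cmap ψ)
  map_smul' a ψ := by rw [map_smul, map_smul]; rfl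
  map_zero' := by rw [map_zero, map_zero]
  map_add' ψ φ := by rw [map_add, map_add]
  map_mul' ψ φ := by rw [map_mul, map_mul]
  map_star' ψ := by rw [map_star, map_star]

variable {E F : PP ℝ → (CP ℝ →⋆ₐ[ℂ] (K →L[ℂ] K))} {Φ : C(Ix → PP ℝ, ℂ) →⋆ₐ[ℂ] (K →L[ℂ] K)}
  (hΦ : ∀ s f, Φ (co s f) = EF E F (lab s) f)
  (hinc : ∀ a l, (a, l) ∈ inc3 (k := ℝ) → Supp (E a) (F l))
  (hE : ∀ a b, a ≠ b → ∀ ξ, (∀ f, E a f ξ = E b f ξ) → ξ = 0)
  (hF : ∀ a b, a ≠ b → ∀ ξ, (∀ f, F a f ξ = F b f ξ) → ξ = 0)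

include hΦ hinc hE hF in
theorem ae_mor (ξ : K) : ∀ᵐ z ∂(ms Φ ξ), Mor z := by
  have h1 : ∀ᵐ z ∂(ms Φ ξ), ∀ s t, ∀ a l, lab s = .inl a → lab t = .inr l →
      (a, l) ∈ inc3 (k := ℝ) → (z s, z t) ∈ inc3 (k := ℝ) := by
    rw [ae_all_iff]; intro s
    rw [ae_all_iff]; intro t
    by_cases h : ∃ a l, lab s = .inl a ∧ lab t = .inr l ∧ (a, l) ∈ inc3 (k := ℝ)
    · obtain ⟨a, l, ha, hl, hal⟩ := h
      have := ae_inc (Φ := Φ) (φ := fun s => EF E F (lab s)) hΦ (i := s) (j := t)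
        (I := inc3 (k := ℝ)) isClosed_inc (by
          intro u v huv
          simp only [ha, hl]
          exact hinc a l hal u v huv) ξ
      filter_upwards [this] with z hz a' l' _ _ _
      exact hz
    · refine Eventually.of_forall fun z a l ha hl hal => absurd ⟨a, l, ha, hl, hal⟩ h
  have h2 : ∀ᵐ z ∂(ms Φ ξ), ∀ s t, ∀ a b, lab s = .inl a → lab t = .inl b →
      a ≠ b → z s ≠ z t := by
    rw [ae_all_iff]; intro s
    rw [ae_all_iff]; intro t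
    by_cases h : ∃ a b, lab s = .inl a ∧ lab t = .inl b ∧ a ≠ b
    · obtain ⟨a, b, ha, hb, hab⟩ := h
      have := ae_ne (Φ := Φ) (φ := fun s => EF E F (lab s)) hΦ (i := s) (j := t) (by
          intro η hη
          simp only [ha, hb] at hη
          exact hE a b hab η hη) ξ
      filter_upwards [this] with z hz a' l' _ _ _
      exact hz
    · refine Eventually.of_forall fun z a l ha hl hal => absurd ⟨a, l, ha, hl, hal⟩ h
  have h3 : ∀ᵐ z ∂(ms Φ ξ), ∀ s t, ∀ a b, lab s = .inr a → lab t = .inr b →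
      a ≠ b → z s ≠ z t := by
    rw [ae_all_iff]; intro s
    rw [ae_all_iff]; intro t
    by_cases h : ∃ a b, lab s = .inr a ∧ lab t = .inr b ∧ a ≠ b
    · obtain ⟨a, b, ha, hb, hab⟩ := h
      have := ae_ne (Φ := Φ) (φ := fun s => EF E F (lab s)) hΦ (i := s) (j := t) (by
          intro η hη
          simp only [ha, hb] at hη
          exact hF a b hab η hη) ξ
      filter_upwards [this] with z hz a' l' _ _ _
      exact hz
    · refine Eventually.of_forall fun z a l ha hl hal => absurd ⟨a, l, ha, hl, hal⟩ h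
  filter_upwards [h1, h2, h3] with z k1 k2 k3
  exact ⟨k1, k2, k3⟩

/-- in a configuration the frame is `cmap g` -/
theorem exists_g {z : Ix → PP ℝ} (h : Mor z) : ∃ g : G3 ℝ, cmap g = fr z := by
  have h1 : fr z ∈ {z | GPos z} := gpos_of_mor h
  rw [← range_cmap] at h1
  exact h1

include hΦ hinc hE hF in
/-- identities may be checked on configurations -/
theorem phi_mor {f f' : C(Ix → PP ℝ, ℂ)} (h : ∀ z (g : G3 ℝ), Mor z → cmap g = fr z → f z = f' z) :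
    Φ f = Φ f' := by
  refine phi_congr_ae Φ fun ξ => ?_
  filter_upwards [ae_mor hΦ hinc hE hF ξ] with z hz
  obtain ⟨g, hg⟩ := exists_g hz
  exact h z g hz hg

/-- the calculus of the frame -/
noncomputable def Phi4 (Φ : C(Ix → PP ℝ, ℂ) →⋆ₐ[ℂ] (K →L[ℂ] K)) :
    C(Fin 4 → PP ℝ, ℂ) →⋆ₐ[ℂ] (K →L[ℂ] K) := Φ.comp (fr.compStarAlgHom' ℂ ℂ)

theorem Phi4_apply (f : C(Fin 4 → PP ℝ, ℂ)) : Phi4 Φ f = Φ (f.comp fr) := rfl

theorem Q_apply (ψ : C₀(G3 ℝ, ℂ)) :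
    Qc (Phi4 Φ) ψ = Φ ((ext isOpenEmbedding_cmap ψ).comp fr) := rfl

theorem ext_cmap (ψ : C₀(G3 ℝ, ℂ)) (g : G3 ℝ) : ext isOpenEmbedding_cmap ψ (cmap g) = ψ g :=
  ext_apply _ ψ g

include hΦ hinc hE hF in
theorem mulE_lab {s : Ix} {a : PP ℝ} (hs : lab s = .inl a) (f : CP ℝ) (ψ ψ' : C₀(G3 ℝ, ℂ))
    (h : ∀ g, ψ' g = f (g • a) * ψ g) : E a f * Qc (Phi4 Φ) ψ = Qc (Phi4 Φ) ψ' := by
  have e : E a f = Φ (co s f) := by rw [hΦ, hs]; rfl
  rw [e, Q_apply, Q_apply, ← map_mul]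
  refine phi_mor hΦ hinc hE hF fun z g hz hg => ?_
  have h1 := (mor_eq hz g (fun i => (congrFun hg i).symm) s).1 a hs
  change f (z s) * ext isOpenEmbedding_cmap ψ (fr z) = ext isOpenEmbedding_cmap ψ' (fr z)
  rw [← hg, ext_cmap, ext_cmap, h1, h]

include hΦ hinc hE hF in
theorem mulF_lab {s : Ix} {l : PP ℝ} (hs : lab s = .inr l) (f : CP ℝ) (ψ ψ' : C₀(G3 ℝ, ℂ))
    (h : ∀ g, ψ' g = f (tau ℝ g • l) * ψ g) : F l f * Qc (Phi4 Φ) ψ = Qc (Phi4 Φ) ψ' := by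
  have e : F l f = Φ (co s f) := by rw [hΦ, hs]; rfl
  rw [e, Q_apply, Q_apply, ← map_mul]
  refine phi_mor hΦ hinc hE hF fun z g hz hg => ?_
  have h1 := (mor_eq hz g (fun i => (congrFun hg i).symm) s).2 l hs
  change f (z s) * ext isOpenEmbedding_cmap ψ (fr z) = ext isOpenEmbedding_cmap ψ' (fr z)
  rw [← hg, ext_cmap, ext_cmap, h1, h]

include hΦ hinc hE hF in
theorem right_lab {π : G3 ℝ →* (K →L[ℂ] K)}
    (pE : ∀ g a f, π g * E a f * π g⁻¹ = E (g • a) f) {h : G3 ℝ}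
    (hs : ∀ i, ∃ s, lab s = .inl (h • src ℝ i)) (ψ ψ' : C₀(G3 ℝ, ℂ))
    (hψ : ∀ g, ψ' g = ψ (g * h)) : π h * Qc (Phi4 Φ) ψ * π h⁻¹ = Qc (Phi4 Φ) ψ' := by
  choose s hs using hs
  let rs : C(Ix → PP ℝ, Fin 4 → PP ℝ) := ⟨fun z i => z (s i), by fun_prop⟩
  have h1 := conj_eq (Phi4 Φ) (Φ.comp (rs.compStarAlgHom' ℂ ℂ)) (ContinuousMap.id _)
    (U := π h) (V := π h⁻¹) (by rw [← map_mul, mul_inv_cancel, map_one])
    (by rw [← map_mul, inv_mul_cancel, map_one]) (by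
      intro i f
      have e1 : Phi4 Φ (co i f) = Φ (co (.inl i) f) := rfl
      have e2 : (Φ.comp (rs.compStarAlgHom' ℂ ℂ)) ((co i f).comp (ContinuousMap.id _)) =
        Φ (co (s i) f) := rfl
      rw [e1, e2, hΦ, hΦ, hs]
      exact pE h (src ℝ i) f) (ext isOpenEmbedding_cmap ψ)
  change π h * Qc (Phi4 Φ) ψ * π h⁻¹ = Φ ((ext isOpenEmbedding_cmap ψ).comp rs) at h1
  rw [h1, Q_apply]
  refine phi_mor hΦ hinc hE hF fun z g hz hg => ?_
  change ext isOpenEmbedding_cmap ψ (rs z) = ext isOpenEmbedding_cmap ψ' (fr z)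
  have h2 : rs z = cmap (g * h) := by
    funext i
    rw [cmap_mul]
    exact (mor_eq hz g (fun i => (congrFun hg i).symm) (s i)).1 _ (hs i)
  rw [h2, ← hg, ext_cmap, ext_cmap, hψ]

include hΦ hinc hE hF in
theorem nd_Q {ξ : K} (h : ∀ ψ, Qc (Phi4 Φ) ψ ξ = 0) : ξ = 0 := by
  obtain ⟨f, hf⟩ := exists_pos_on (X := Fin 4 → PP ℝ) isOpen_gpos
  obtain ⟨ψ, hψ⟩ := ext_surj isOpenEmbedding_cmap f (by
    intro z hz
    rw [range_cmap] at hz
    exact (hf z).2 hz)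
  refine nd_of_ne Φ (f := f.comp fr) ?_ ?_
  · filter_upwards [ae_mor hΦ hinc hE hF ξ] with z hz h0
    exact (hf (fr z)).1 h0 (gpos_of_mor hz)
  · have := h ψ
    rw [Q_apply, hψ] at this
    exact this

/-- right translation -/
noncomputable def rtrans (h : G3 ℝ) (ψ : C₀(G3 ℝ, ℂ)) : C₀(G3 ℝ, ℂ) :=
  ψ.comp ⟨⟨fun g => g * h, continuous_mul_const h⟩, (Homeomorph.mulRight h).isClosedEmbedding.tendsto_cocompact⟩

theorem rtrans_apply (h : G3 ℝ) (ψ : C₀(G3 ℝ, ℂ)) (g : G3 ℝ) : rtrans h ψ g = ψ (g * h) := rfl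

theorem adj_pi {π : G3 ℝ →* (K →L[ℂ] K)} (hiso : ∀ g ξ, ‖π g ξ‖ = ‖ξ‖) (g : G3 ℝ) (ξ η : K) :
    ⟪ξ, π g η⟫_ℂ = ⟪π g⁻¹ ξ, η⟫_ℂ := by
  let L : K →ₗᵢ[ℂ] K := ⟨(π g : K →ₗ[ℂ] K), hiso g⟩
  have h1 : π g (π g⁻¹ ξ) = ξ := by
    rw [← mul_apply_eq_comp, ← map_mul, mul_inv_cancel, map_one, one_apply_eq_self]
  calc ⟪ξ, π g η⟫_ℂ = ⟪π g (π g⁻¹ ξ), π g η⟫_ℂ := by rw [h1]
    _ = ⟪π g⁻¹ ξ, η⟫_ℂ := L.inner_map_map _ _

/-- the elements for which `Q` is covariant on the right -/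
def RtD (π : G3 ℝ →* (K →L[ℂ] K)) (Q : C₀(G3 ℝ, ℂ) →⋆ₙₐ[ℂ] (K →L[ℂ] K)) : Subgroup (G3 ℝ) where
  carrier := {h | ∀ ψ, π h * Q ψ * π h⁻¹ = Q (rtrans h ψ)}
  mul_mem' := by
    intro a b ha hb ψ
    have e : rtrans (a * b) ψ = rtrans a (rtrans b ψ) := by
      ext g
      simp only [rtrans_apply, mul_assoc]
    rw [e, ← ha, ← hb, map_mul, mul_inv_rev, map_mul]
    simp only [mul_assoc]
  one_mem' := by
    intro ψ
    have e : rtrans 1 ψ = ψ := by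
      ext g
      simp only [rtrans_apply, mul_one]
    rw [e, inv_one, map_one, one_mul, mul_one]
  inv_mem' := by
    intro a ha ψ
    have h1 := ha (rtrans a⁻¹ ψ)
    have e : rtrans a (rtrans a⁻¹ ψ) = ψ := by
      ext g
      simp only [rtrans_apply, mul_assoc, mul_inv_cancel, mul_one]
    rw [e] at h1
    rw [← h1, inv_inv]
    have h2 : π a⁻¹ * π a = 1 := by rw [← map_mul, inv_mul_cancel, map_one]
    calc π a⁻¹ * (π a * Q (rtrans a⁻¹ ψ) * π a⁻¹) * π a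
        = (π a⁻¹ * π a) * Q (rtrans a⁻¹ ψ) * (π a⁻¹ * π a) := by simp only [mul_assoc]
      _ = Q (rtrans a⁻¹ ψ) := by rw [h2, one_mul, mul_one]

include hΦ hinc hE hF in
theorem closed_RtD {π : G3 ℝ →* (K →L[ℂ] K)} (hiso : ∀ g ξ, ‖π g ξ‖ = ‖ξ‖)
    (hcont : ∀ ξ, Continuous fun g => π g ξ) :
    IsClosed (RtD π (Qc (Phi4 Φ)) : Set (G3 ℝ)) := by
  have e : (RtD π (Qc (Phi4 Φ)) : Set (G3 ℝ)) = ⋂ ψ : C₀(G3 ℝ, ℂ), ⋂ ξ : K,
      {h | ⟪π h⁻¹ ξ, Qc (Phi4 Φ) ψ (π h⁻¹ ξ)⟫_ℂ =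
        ∫ z, ext isOpenEmbedding_cmap (rtrans h ψ) (fr z) ∂(ms Φ ξ)} := by
    ext h
    simp only [Set.mem_iInter, Set.mem_setOf_eq]
    have h1 : ∀ (ψ : C₀(G3 ℝ, ℂ)) (ξ : K),
        ∫ z, ext isOpenEmbedding_cmap (rtrans h ψ) (fr z) ∂(ms Φ ξ) =
          ⟪ξ, Qc (Phi4 Φ) (rtrans h ψ) ξ⟫_ℂ := by
      intro ψ ξ
      exact integral_ms Φ ((ext isOpenEmbedding_cmap (rtrans h ψ)).comp fr) ξ
    have h2 : ∀ (ψ : C₀(G3 ℝ, ℂ)) (ξ : K), ⟪π h⁻¹ ξ, Qc (Phi4 Φ) ψ (π h⁻¹ ξ)⟫_ℂ =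
        ⟪ξ, (π h * Qc (Phi4 Φ) ψ * π h⁻¹) ξ⟫_ℂ := by
      intro ψ ξ
      rw [mul_apply_eq_comp, mul_apply_eq_comp, adj_pi hiso]
    constructor
    · intro hh ψ ξ
      have hh' : π h * Qc (Phi4 Φ) ψ * π h⁻¹ = Qc (Phi4 Φ) (rtrans h ψ) := hh ψ
      rw [h1, h2, hh']
    · intro hh ψ
      refine H466.ext_quad fun ξ => ?_
      rw [← h1, ← h2]
      exact hh ψ ξ
  rw [e]
  haveI := sec_G3
  refine isClosed_iInter fun ψ => isClosed_iInter fun ξ => isClosed_eq ?_ ?_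
  · have h1 : Continuous fun h : G3 ℝ => π h⁻¹ ξ := (hcont ξ).comp continuous_inv
    exact h1.inner ((Qc (Phi4 Φ) ψ).continuous.comp h1)
  · refine continuous_of_dominated (bound := fun _ => ‖ψ‖) ?_ ?_ ?_ ?_
    · intro h
      exact (integrable_ms Φ ((ext isOpenEmbedding_cmap (rtrans h ψ)).comp fr) ξ).1
    · intro h
      filter_upwards [ae_mor hΦ hinc hE hF ξ] with z hz
      obtain ⟨g, hg⟩ := exists_g hz
      rw [← hg, ext_cmap, rtrans_apply]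
      exact ψ.toBCF.norm_coe_le_norm _
    · exact integrable_const _
    · filter_upwards [ae_mor hΦ hinc hE hF ξ] with z hz
      obtain ⟨g, hg⟩ := exists_g hz
      have : ∀ h, ext isOpenEmbedding_cmap (rtrans h ψ) (fr z) = ψ (g * h) := by
        intro h
        rw [← hg, ext_cmap, rtrans_apply]
      simp_rw [this]
      exact ψ.continuous.comp (continuous_const_mul g)

end core

/-- **[D-CLS]** a commuting quantum plane over `ℝ` is classical. -/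
theorem clsStmt : ClsStmt := by
  intro K _ _ _ π E F hiso hcont pE pF hinc hE hF cEE cEF cFF
  obtain ⟨Φ, hΦ⟩ := exists_joint (fun s : Ix => EF E F (lab s)) (by
    intro s t f g
    rcases hs : lab s with a | l <;> rcases ht : lab t with b | m
    · exact cEE a b f g
    · exact cEF a m f g
    · exact (cEF b l g f).symm
    · exact cFF l m f g)
  have hR : RtD π (Qc (Phi4 Φ)) = ⊤ := by
    refine closed_top _ (closed_RtD hΦ hinc hE hF hiso hcont) fun h hs ψ => ?_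
    exact right_lab hΦ hinc hE hF pE hs ψ _ fun g => rfl
  have hr : ∀ h (ψ ψ' : C₀(G3 ℝ, ℂ)), (∀ g, ψ' g = ψ (g * h)) →
      π h * Qc (Phi4 Φ) ψ * π h⁻¹ = Qc (Phi4 Φ) ψ' := by
    intro h ψ ψ' hψ
    have h1 : h ∈ RtD π (Qc (Phi4 Φ)) := by rw [hR]; trivial
    have h2 : π h * Qc (Phi4 Φ) ψ * π h⁻¹ = Qc (Phi4 Φ) (rtrans h ψ) := h1 ψ
    rw [h2]
    congr 1
    ext g
    exact (hψ g).symm
  have hinv : ∀ h, π h⁻¹ * π h = 1 := fun h => by rw [← map_mul, inv_mul_cancel, map_one]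
  -- moving a relation from one point to all points
  have hmove : ∀ (h : G3 ℝ) (A B : K →L[ℂ] K) (ψ ψ' : C₀(G3 ℝ, ℂ)),
      π h * A * π h⁻¹ = B → A * Qc (Phi4 Φ) (rtrans h⁻¹ ψ) = Qc (Phi4 Φ) (rtrans h⁻¹ ψ') →
      B * Qc (Phi4 Φ) ψ = Qc (Phi4 Φ) ψ' := by
    intro h A B ψ ψ' hAB hA
    have e1 := hr h (rtrans h⁻¹ ψ) ψ fun g => by
      rw [rtrans_apply, mul_assoc, mul_inv_cancel, mul_one]
    have e2 := hr h (rtrans h⁻¹ ψ') ψ' fun g => by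
      rw [rtrans_apply, mul_assoc, mul_inv_cancel, mul_one]
    rw [← e1, ← e2, ← hAB, ← hA]
    calc π h * A * π h⁻¹ * (π h * Qc (Phi4 Φ) (rtrans h⁻¹ ψ) * π h⁻¹)
        = π h * A * (π h⁻¹ * π h) * Qc (Phi4 Φ) (rtrans h⁻¹ ψ) * π h⁻¹ := by
          simp only [mul_assoc]
      _ = _ := by rw [hinv, mul_one]; simp only [mul_assoc]
  refine ⟨Qc (Phi4 Φ), ⟨fun ξ h => nd_Q hΦ hinc hE hF h, ?_, ?_, hr, ?_, ?_⟩⟩
  · -- all points
    intro a f ψ ψ' hψ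
    obtain ⟨h, rfl⟩ := trans (src ℝ 0) a
    refine hmove h (E (src ℝ 0) f) _ ψ ψ' (pE h _ f) ?_
    refine mulE_lab hΦ hinc hE hF (s := .inl 0) rfl f _ _ fun g => ?_
    rw [rtrans_apply, rtrans_apply, hψ, smul_smul, mul_assoc, inv_mul_cancel, mul_one]
  · -- all lines
    intro l f ψ ψ' hψ
    obtain ⟨h', hh'⟩ := trans (ln ℝ 0 1) l
    have htt : tau ℝ (tau ℝ h') = h' := by
      apply Subtype.ext
      rw [tau_val, ← map_inv, tau_val, Matrix.transpose_transpose, inv_inv]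
    refine hmove (tau ℝ h') (F (ln ℝ 0 1) f) _ ψ ψ' (by rw [pF, htt, hh']) ?_
    refine mulF_lab hΦ hinc hE hF (s := .inr (.inl (0, 1))) rfl f _ _ fun g => ?_
    rw [rtrans_apply, rtrans_apply, hψ, map_mul, map_inv, htt, ← hh', smul_smul, mul_assoc,
      inv_mul_cancel, mul_one]
  · -- left
    intro γ U V hUV hVU hU ψ ψ' hψ
    have h1 := conj_eq (Phi4 Φ) (Phi4 Φ) ⟨fun z i => γ⁻¹ • z i, by fun_prop⟩ hUV hVU (by
      intro i f
      have e1 : Phi4 Φ (co i f) = E (src ℝ i) f := hΦ (.inl i) f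
      have e2 : Phi4 Φ ((co i f).comp ⟨fun z i => γ⁻¹ • z i, by fun_prop⟩) =
        E (src ℝ i) (act γ f) := hΦ (.inl i) (act γ f)
      rw [e1, e2]
      exact hU _ f) (ext isOpenEmbedding_cmap ψ)
    change U * Qc (Phi4 Φ) ψ * V = _ at h1
    rw [h1, Q_apply, Phi4_apply]
    refine phi_mor hΦ hinc hE hF fun z g hz hg => ?_
    change ext isOpenEmbedding_cmap ψ (fun i => γ⁻¹ • (fr z) i) =
      ext isOpenEmbedding_cmap ψ' (fr z)
    have h2 : (fun i => γ⁻¹ • (fr z) i) = cmap (γ⁻¹ * g) := by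
      funext i
      rw [cmap_mul, hg]
    rw [h2, ← hg, ext_cmap, ext_cmap, hψ]
  · -- generation
    intro T hT ψ
    exact comm_all (Phi4 Φ) (fun i f => by
      have e1 : Phi4 Φ (co i f) = E (src ℝ i) f := hΦ (.inl i) f
      rw [e1]
      exact hT _ f) _

/-- **[D-CLS]** in the letters of SD/Blocks. -/
theorem clsD (μ : Measure ℝ) : SD.ClsStmt ℝ μ := by
  intro Γ K _ _ _ _ w π lam W Ω m q E F hL hQ cEE cEF cFF
  have hiso : ∀ g ξ, ‖π g ξ‖ = ‖ξ‖ := by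
    intro g ξ
    have h1 : adjoint (π g) * π g = 1 := by
      rw [hL.pic.adjP, ← map_mul, inv_mul_cancel, map_one]
    have h2 := ContinuousLinearMap.apply_norm_sq_eq_inner_adjoint_left (π g) ξ
    have h3 : (adjoint (π g)) (π g ξ) = ξ := by
      rw [← mul_apply_eq_comp, h1, one_apply_eq_self]
    have h4 : ‖π g ξ‖ ^ 2 = ‖ξ‖ ^ 2 := by
      rw [h2]
      have : (adjoint (π g) ∘L π g) ξ = ξ := h3
      rw [this]
      exact inner_self_eq_norm_sq (𝕜 := ℂ) ξ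
    exact (sq_eq_sq₀ (norm_nonneg _) (norm_nonneg _)).1 h4
  have htt : ∀ h : G3 ℝ, tau ℝ (tau ℝ h) = h := by
    intro h
    apply Subtype.ext
    rw [tau_val, ← map_inv, tau_val, Matrix.transpose_transpose, inv_inv]
  obtain ⟨Q, hq⟩ := clsStmt π E F hiso hL.pic.contP hL.e.pcov (by
    intro g l f
    have := hL.f.pcov (tau ℝ g) l f
    rw [MonoidHom.comp_apply, MonoidHom.comp_apply, htt, map_inv, htt] at this
    exact this) hQ.inc hQ.agrE hQ.agrF cEE cEF cFF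
  have hlam : ∀ γ, lam γ * lam γ⁻¹ = 1 := fun γ => by rw [← map_mul, mul_inv_cancel, map_one]
  have hlam' : ∀ γ, lam γ⁻¹ * lam γ = 1 := fun γ => by rw [← map_mul, inv_mul_cancel, map_one]
  refine ⟨Q, ⟨hq.nd, ?_, ?_, hq.right, hq.mulE, hq.mulF⟩⟩
  · intro ψ w' hw'
    exact (hq.gen w' (fun a f => (hL.e.cm a f w' hw').symm) ψ).symm
  · intro γ ψ ψ' h
    exact hq.left (q γ) _ _ (hlam γ) (hlam' γ) (fun a f => hL.e.cov γ a f) ψ ψ' h

end Vale.Agent.P092.H171
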