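import Vale.Agent.P092.H171.Ce
import Vale.Agent.P092.H35.Sig
import Vale.Agent.P092.H264.EndC

/-!
P092, TEAM N, [N-XCE], END half (helper171): from the output of [N-CLS] (one factor, any local
field, any `n`, twist `σ`, any source group `S` acting through `a : S →* PGL_n(k)`) to helper264's
classical leg over `PGL_n(k)`.
-/

set_option linter.all false

namespace Vale.Agent.P092.H171

open MeasureTheory Topology TopologicalSpace Filter Set ContinuousLinearMap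
open Vale.Agent.P092.H466
open Vale.Agent.P092.H789 (PG YY src cmap isOpenEmbedding_cmap mk_smul cmap_apply)
open Vale.Agent.P092.H35.Sig (sgm sgm_mk sgm_src sl_inj)
open scoped InnerProductSpace ZeroAtInfty LinearAlgebra.Projectivization

section pgm

variable {k : Type} [NontriviallyNormedField k] {n : ℕ}

theorem map_center (σ : k →+* k) : Subgroup.center (GL (Fin n) k) ≤
    (Subgroup.center (GL (Fin n) k)).comap (Matrix.GeneralLinearGroup.map σ) := by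
  intro g hg
  rw [Subgroup.mem_comap]
  obtain ⟨c, hc⟩ := H35.center_iff.1 hg
  rw [H35.center_iff]
  refine ⟨σ c, ?_⟩
  ext i j
  have h1 : (Matrix.GeneralLinearGroup.map σ g).1 i j = σ (g.1 i j) := rfl
  rw [h1, hc, Matrix.smul_apply, Matrix.smul_apply, smul_eq_mul, smul_eq_mul, map_mul,
    Matrix.one_apply]
  split_ifs <;> simp

/-- the map of `PGL_n(k)` given by `σ` -/
noncomputable def pgm (σ : k →+* k) (n : ℕ) : PG k n →* PG k n :=
  QuotientGroup.map _ _ (Matrix.GeneralLinearGroup.map σ) (map_center σ)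

theorem pgm_mk (σ : k →+* k) (g : GL (Fin n) k) :
    pgm σ n (QuotientGroup.mk g) = QuotientGroup.mk (Matrix.GeneralLinearGroup.map σ g) := rfl

theorem sgm_smul_gl (σ : k →+* k) (g : GL (Fin n) k) (x : ℙ k (Fin n → k)) :
    sgm σ n (g • x) = Matrix.GeneralLinearGroup.map σ g • sgm σ n x := by
  induction x using Projectivization.ind with
  | h v hv =>
    rw [sgm_mk, Projectivization.smul_mk, Projectivization.smul_mk, sgm_mk]
    congr 1
    funext i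
    change σ ((g.1.mulVec v) i) =
      ((Matrix.GeneralLinearGroup.map σ g).1.mulVec fun i => σ (v i)) i
    rw [RingHom.map_mulVec]
    rfl

theorem sgm_smul_pg (σ : k →+* k) (y : PG k n) (x : ℙ k (Fin n → k)) :
    sgm σ n (y • x) = pgm σ n y • sgm σ n x := by
  obtain ⟨g, rfl⟩ := QuotientGroup.mk_surjective y
  rw [pgm_mk, mk_smul, mk_smul, sgm_smul_gl]

end pgm

section leg

variable {k : Type} [NontriviallyNormedField k] [ProperSpace k] {m : ℕ}
  {S Γ K : Type} [Group S] [Group Γ] [NormedAddCommGroup K] [InnerProductSpace ℂ K]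
  [CompleteSpace K]

/-- **right covariance for the whole source group** -/
theorem right_src {a : S →* PG k (m + 1)} {π : S →* (K →L[ℂ] K)}
    {E : YY k m → (C(YY k m, ℂ) →⋆ₐ[ℂ] (K →L[ℂ] K))}
    {Q : C₀(PG k (m + 1), ℂ) →⋆ₙₐ[ℂ] (K →L[ℂ] K)} {σ : k →+* k}
    (hcomm : ∀ x y f g, Commute (E x f) (E y g))
    (pcov : ∀ e x f, π e * E x f * π e⁻¹ = E (a e • x) f)
    (nd : ∀ ξ, (∀ ψ, Q ψ ξ = 0) → ξ = 0)
    (mulE : ∀ x f (ψ ψ' : C₀(PG k (m + 1), ℂ)),
      (∀ g, ψ' g = f (g • sgm σ (m + 1) x) * ψ g) → E x f * Q ψ = Q ψ')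
    (e : S) (ψ ψ' : C₀(PG k (m + 1), ℂ)) (h : ∀ g, ψ' g = ψ (g * pgm σ (m + 1) (a e))) :
    π e * Q ψ * π e⁻¹ = Q ψ' := by
  letI : MeasurableSpace (YY k m) := borel _
  haveI : BorelSpace (YY k m) := ⟨rfl⟩
  refine rt_all (isOpenEmbedding_cmap (k := k) (m := m)) hcomm (s := src k m)
    (p := fun x g => g • sgm σ (m + 1) x) (fun i g => ?_) Q nd (fun x f ψ ψ' h => mulE x f ψ ψ' h)
    (U := π e) (V := π e⁻¹) (by rw [← map_mul, mul_inv_cancel, map_one])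
    (by rw [← map_mul, inv_mul_cancel, map_one]) (x := pgm σ (m + 1) (a e))
    (s' := fun i => a e • src k m i) (fun i f => pcov e _ f) (fun i g => ?_) ψ ψ' h
  · rw [sgm_src, cmap_apply]
  · rw [sgm_smul_pg, sgm_src, cmap_apply, mul_smul]

/-- generation: the frame points generate -/
theorem gen_src {E : YY k m → (C(YY k m, ℂ) →⋆ₐ[ℂ] (K →L[ℂ] K))}
    {Q : C₀(PG k (m + 1), ℂ) →⋆ₙₐ[ℂ] (K →L[ℂ] K)} {σ : k →+* k}
    (hcomm : ∀ x y f g, Commute (E x f) (E y g)) (nd : ∀ ξ, (∀ ψ, Q ψ ξ = 0) → ξ = 0)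
    (mulE : ∀ x f (ψ ψ' : C₀(PG k (m + 1), ℂ)),
      (∀ g, ψ' g = f (g • sgm σ (m + 1) x) * ψ g) → E x f * Q ψ = Q ψ')
    {T : K →L[ℂ] K} (hT : ∀ i f, Commute T (E (src k m i) f)) (ψ : C₀(PG k (m + 1), ℂ)) :
    Commute T (Q ψ) := by
  letI : MeasurableSpace (YY k m) := borel _
  haveI : BorelSpace (YY k m) := ⟨rfl⟩
  refine comm_all' (isOpenEmbedding_cmap (k := k) (m := m)) hcomm (s := src k m)
    (p := fun x g => g • sgm σ (m + 1) x) (fun i g => ?_) Q nd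
    (fun x f ψ ψ' h => mulE x f ψ ψ' h) hT ψ
  rw [sgm_src, cmap_apply]

/-- **helper264's classical leg** over `PGL_n(k)` -/
theorem cleg_pg {a : S →* PG k (m + 1)} {π : S →* (K →L[ℂ] K)} {lam : Γ →* (K →L[ℂ] K)}
    {W : Set (K →L[ℂ] K)} {E : YY k m → (C(YY k m, ℂ) →⋆ₐ[ℂ] (K →L[ℂ] K))}
    {Q : C₀(PG k (m + 1), ℂ) →⋆ₙₐ[ℂ] (K →L[ℂ] K)} {σ : k →+* k} {q : Γ →* PG k (m + 1)}
    (hcomm : ∀ x y f g, Commute (E x f) (E y g))
    (pcov : ∀ e x f, π e * E x f * π e⁻¹ = E (a e • x) f)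
    (cm : ∀ x f, RC.Cm W (E x f)) (nd : ∀ ξ, (∀ ψ, Q ψ ξ = 0) → ξ = 0)
    (mulE : ∀ x f (ψ ψ' : C₀(PG k (m + 1), ℂ)),
      (∀ g, ψ' g = f (g • sgm σ (m + 1) x) * ψ g) → E x f * Q ψ = Q ψ')
    (cov : ∀ γ (ψ ψ' : C₀(PG k (m + 1), ℂ)), (∀ g, ψ' g = ψ ((q γ)⁻¹ * g)) →
      lam γ * Q ψ * lam γ⁻¹ = Q ψ')
    (inj : Function.Injective q)
    (disc : ∀ C : Set (PG k (m + 1)), IsCompact C → {γ | q γ ∈ C}.Finite) :
    H264.Cl.CLeg π lam W q Q where
  nd := nd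
  cm ψ w hw := (gen_src hcomm nd mulE (T := w) (fun i f => (cm _ f w hw).symm) ψ).symm
  cov := cov
  pcov e ψ := ⟨_, right_src hcomm pcov nd mulE e ψ
    (rtr (pgm σ (m + 1) (a e)) ψ) fun g => rfl⟩
  inj := inj
  disc := disc

end leg

end Vale.Agent.P092.H171
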