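import Vale.Agent.P092.H466.Pvm2

/-!
P092, TEAM D, block [D-CLS] (helper171): almost everywhere statements for a joint calculus `Φ` on
`ι → P`, `P` compact metrizable, `ι` finite.
-/

set_option linter.all false

namespace Vale.Agent.P092.H171

open MeasureTheory Topology TopologicalSpace Filter Set
open Vale.Agent.P092.H466
open scoped InnerProductSpace ENNReal NNReal ComplexConjugate

section One

variable {X : Type*} [TopologicalSpace X] [CompactSpace X] [MetrizableSpace X]
  [MeasurableSpace X] [BorelSpace X]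
  {K : Type*} [NormedAddCommGroup K] [InnerProductSpace ℂ K] [CompleteSpace K]
  (φ : C(X, ℂ) →⋆ₐ[ℂ] (K →L[ℂ] K))

/-- functions which agree almost everywhere -/
theorem phi_congr_ae {f g : C(X, ℂ)} (h : ∀ ξ, ∀ᵐ z ∂(ms φ ξ), f z = g z) : φ f = φ g :=
  ext_quad fun ξ => by
    rw [← integral_ms, ← integral_ms]
    exact integral_congr_ae (h ξ)

/-- a vector killed by the functions of an open set of full measure is zero -/
theorem nd_of_ae {O : Set X} (hO : IsOpen O) (h : ∀ ξ, ∀ᵐ z ∂(ms φ ξ), z ∈ O) {ξ : K}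
    (h0 : ∀ f : C(X, ℂ), (∀ z, z ∉ O → f z = 0) → φ f ξ = 0) : ξ = 0 := by
  letI := metrizableSpaceMetric X
  rcases eq_or_ne O univ with hU | hU
  · have := h0 1 (fun z hz => absurd (by rw [hU]; trivial) hz)
    rwa [map_one] at this
  have hne : Oᶜ.Nonempty := nonempty_compl.2 hU
  have hcl : IsClosed Oᶜ := hO.isClosed_compl
  let f : C(X, ℂ) := ⟨fun x => ((Metric.infDist x Oᶜ : ℝ) : ℂ), by fun_prop⟩
  have hf0 : ∀ z, f z = 0 ↔ z ∉ O := by
    intro z
    have e : f z = ((Metric.infDist z Oᶜ : ℝ) : ℂ) := rfl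
    rw [e, Complex.ofReal_eq_zero, ← hcl.mem_iff_infDist_zero hne, mem_compl_iff]
  have h1 : φ f ξ = 0 := h0 f fun z hz => (hf0 z).2 hz
  have h2 := norm_phi_pv_sq φ MeasurableSet.univ f ξ
  rw [pv_univ, one_apply_eq_self, h1, norm_zero, Measure.restrict_univ] at h2
  have h3 : (fun x => ‖f x‖ ^ 2) =ᵐ[ms φ ξ] 0 := by
    refine (integral_eq_zero_iff_of_nonneg (fun x => by positivity) ?_).1 ?_
    · exact (((map_continuous f).norm.pow 2).integrable_of_hasCompactSupport
        (HasCompactSupport.of_compactSpace _))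
    · rw [← h2]; norm_num
  have h4 : ∀ᵐ z ∂(ms φ ξ), False := by
    filter_upwards [h3, h ξ] with z hz hzO
    have : f z = 0 := by simpa using hz
    exact (hf0 z).1 this hzO
  have h5 : ms φ ξ univ = 0 :=
    measure_eq_zero_iff_ae_notMem.2 (h4.mono fun z hz => hz.elim)
  have h6 := ms_univ φ ξ
  rw [Measure.real, h5] at h6
  simpa using h6.symm

/-- a vector killed by a function which is almost everywhere nonzero is zero -/
theorem nd_of_ne {ξ : K} {f : C(X, ℂ)} (h : ∀ᵐ z ∂(ms φ ξ), f z ≠ 0) (h1 : φ f ξ = 0) :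
    ξ = 0 := by
  have h2 := norm_phi_pv_sq φ MeasurableSet.univ f ξ
  rw [pv_univ, one_apply_eq_self, h1, norm_zero, Measure.restrict_univ] at h2
  have h3 : (fun x => ‖f x‖ ^ 2) =ᵐ[ms φ ξ] 0 := by
    refine (integral_eq_zero_iff_of_nonneg (fun x => by positivity) ?_).1 ?_
    · exact (((map_continuous f).norm.pow 2).integrable_of_hasCompactSupport
        (HasCompactSupport.of_compactSpace _))
    · rw [← h2]; norm_num
  have h4 : ∀ᵐ z ∂(ms φ ξ), False := by
    filter_upwards [h3, h] with z hz hzO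
    have : f z = 0 := by simpa using hz
    exact hzO this
  have h5 : ms φ ξ univ = 0 :=
    measure_eq_zero_iff_ae_notMem.2 (h4.mono fun z hz => hz.elim)
  have h6 := ms_univ φ ξ
  rw [Measure.real, h5] at h6
  simpa using h6.symm

/-- a function which vanishes exactly off an open set -/
theorem exists_pos_on {X : Type*} [TopologicalSpace X] [MetrizableSpace X] {O : Set X}
    (hO : IsOpen O) : ∃ f : C(X, ℂ), ∀ z, f z = 0 ↔ z ∉ O := by
  letI := metrizableSpaceMetric X
  rcases eq_or_ne O univ with hU | hU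
  · exact ⟨⟨fun _ => 1, continuous_const⟩, fun z => by simp [hU]⟩
  have hne : Oᶜ.Nonempty := nonempty_compl.2 hU
  have hcl : IsClosed Oᶜ := hO.isClosed_compl
  refine ⟨⟨fun x => ((Metric.infDist x Oᶜ : ℝ) : ℂ), by fun_prop⟩, fun z => ?_⟩
  change ((Metric.infDist z Oᶜ : ℝ) : ℂ) = 0 ↔ z ∉ O
  rw [Complex.ofReal_eq_zero, ← hcl.mem_iff_infDist_zero hne, mem_compl_iff]

end One

section Joint

variable {P : Type*} [TopologicalSpace P] [CompactSpace P] [MetrizableSpace P]
  [MeasurableSpace P] [BorelSpace P] {ι : Type*} [Finite ι]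
  {K : Type*} [NormedAddCommGroup K] [InnerProductSpace ℂ K] [CompleteSpace K]

/-- a function of the coordinate `i` -/
noncomputable def co {P : Type*} [TopologicalSpace P] {ι : Type*} (i : ι) (f : C(P, ℂ)) : C(ι → P, ℂ) :=
  f.comp ⟨fun z => z i, continuous_apply i⟩

@[simp] lemma co_apply {P : Type*} [TopologicalSpace P] {ι : Type*} (i : ι) (f : C(P, ℂ))
    (z : ι → P) : co i f z = f (z i) := rfl

variable [SecondCountableTopology P]
  {Φ : C(ι → P, ℂ) →⋆ₐ[ℂ] (K →L[ℂ] K)} {φ : ι → (C(P, ℂ) →⋆ₐ[ℂ] (K →L[ℂ] K))}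
  (hΦ : ∀ i f, Φ (co i f) = φ i f)

include hΦ

theorem ae_ne {i j : ι} (h : ∀ ξ, (∀ f, φ i f ξ = φ j f ξ) → ξ = 0) (ξ : K) :
    ∀ᵐ z ∂(ms Φ ξ), z i ≠ z j := by
  have hc : IsClosed {z : ι → P | z i = z j} :=
    isClosed_eq (continuous_apply i) (continuous_apply j)
  have h1 : pv Φ {z : ι → P | z i = z j} ξ = 0 := by
    refine h _ fun f => ?_
    rw [← hΦ, ← hΦ, ← mul_apply_eq_comp, ← mul_apply_eq_comp]
    rw [phi_pv_congr Φ (f := co i f) (g := co j f) (A := {z : ι → P | z i = z j})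
      (fun z hz => by simp only [co_apply]; rw [show z i = z j from hz])]
  have h2 := enorm_pv_sq Φ hc.measurableSet ξ
  rw [h1] at h2
  have h3 : ms Φ ξ {z : ι → P | z i = z j} = 0 := by rw [← h2]; simp
  exact measure_eq_zero_iff_ae_notMem.1 h3

theorem ae_inc {i j : ι} {I : Set (P × P)} (hI : IsClosed I)
    (h : ∀ u v : C(P, ℂ), (∀ x ∈ tsupport u, ∀ y ∈ tsupport v, (x, y) ∉ I) → φ i u * φ j v = 0)
    (ξ : K) : ∀ᵐ z ∂(ms Φ ξ), (z i, z j) ∈ I := by
  have hcont : Continuous fun z : ι → P => (z i, z j) :=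
    (continuous_apply i).prodMk (continuous_apply j)
  have h0 : ms Φ ξ {z : ι → P | (z i, z j) ∉ I} = 0 := by
    refine measure_null_of_locally_null _ fun z hz => ?_
    have hz' : (z i, z j) ∈ Iᶜ := hz
    obtain ⟨U, V, hU, hV, hzU, hzV, hUV⟩ := isOpen_prod_iff.1 hI.isOpen_compl _ _ hz'
    obtain ⟨u, hu1, hu2, hu3⟩ := exists_bump (X := P) (isClosed_singleton (x := z i)) hU
      (by simpa using hzU)
    obtain ⟨v, hv1, hv2, hv3⟩ := exists_bump (X := P) (isClosed_singleton (x := z j)) hV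
      (by simpa using hzV)
    have hsu : tsupport (toC u) ⊆ tsupport u :=
      closure_mono fun x hx hx' => hx (by simp [hx'])
    have hsv : tsupport (toC v) ⊆ tsupport v :=
      closure_mono fun x hx hx' => hx (by simp [hx'])
    have h1 : Φ (co i (toC u) * co j (toC v)) = 0 := by
      rw [map_mul, hΦ, hΦ]
      refine h _ _ fun x hx y hy hxy => ?_
      exact hUV ⟨hu2 (hsu hx), hv2 (hsv hy)⟩ hxy
    have h2 := integral_ms Φ (co i (toC u) * co j (toC v)) ξ
    rw [h1, zero_apply, inner_zero_right] at h2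
    have h3 : ∫ x, ((u (x i) * v (x j) : ℝ)) ∂(ms Φ ξ) = 0 := by
      have e : ∀ x : ι → P, (co i (toC u) * co j (toC v)) x = ((u (x i) * v (x j) : ℝ) : ℂ) := by
        intro x
        simp
      simp_rw [e] at h2
      rw [integral_complex_ofReal] at h2
      exact_mod_cast h2
    have hc : Continuous fun x : ι → P => u (x i) * v (x j) := by fun_prop
    have h4 : (fun x : ι → P => u (x i) * v (x j)) =ᵐ[ms Φ ξ] 0 := by
      refine (integral_eq_zero_iff_of_nonneg
        (fun x => mul_nonneg (hu3 _).1 (hv3 _).1) ?_).1 h3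
      exact hc.integrable_of_hasCompactSupport (HasCompactSupport.of_compactSpace _)
    refine ⟨{x : ι → P | 0 < u (x i) * v (x j)}, ?_, ?_⟩
    · refine mem_nhdsWithin_of_mem_nhds (IsOpen.mem_nhds (isOpen_lt continuous_const hc) ?_)
      show 0 < u (z i) * v (z j)
      rw [hu1 _ rfl, hv1 _ rfl]; norm_num
    · refine measure_eq_zero_iff_ae_notMem.2 ?_
      filter_upwards [h4] with x hx hx'
      have : u (x i) * v (x j) = 0 := hx
      have hx'' : 0 < u (x i) * v (x j) := hx'
      rw [this] at hx''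
      exact lt_irrefl _ hx''
  filter_upwards [measure_eq_zero_iff_ae_notMem.1 h0] with z hz
  by_contra hc
  exact hz hc

end Joint

end Vale.Agent.P092.H171
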