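import Vale.Agent.P092.H171.Gp

/-!
P092, TEAM D, block [D-CLS] (helper171): induction over the functions on `ι → P` (Stone-Weierstrass),
uniqueness of the joint calculus, commutants, conjugation.
-/

set_option linter.all false

namespace Vale.Agent.P092.H171

open Topology TopologicalSpace Filter Set
open scoped InnerProductSpace ComplexConjugate

section SW

variable {P : Type*} [TopologicalSpace P] [CompactSpace P] [T2Space P] {ι : Type*}

/-- **Stone-Weierstrass induction** on `C(ι → P, ℂ)`. -/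
theorem co_induction (p : C(ι → P, ℂ) → Prop) (hcl : IsClosed {F | p F})
    (hco : ∀ i f, p (co i f)) (hcst : ∀ c : ℂ, p (algebraMap ℂ C(ι → P, ℂ) c))
    (hadd : ∀ F G, p F → p G → p (F + G)) (hmul : ∀ F G, p F → p G → p (F * G))
    (F : C(ι → P, ℂ)) : p F := by
  let s : Set C(ι → P, ℂ) := {F | ∃ i f, F = co i f}
  let A : StarSubalgebra ℂ C(ι → P, ℂ) :=
    { Algebra.adjoin ℂ s with
      star_mem' := by
        intro a ha
        refine Algebra.adjoin_induction (p := fun a _ => star a ∈ Algebra.adjoin ℂ s)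
          ?_ ?_ ?_ ?_ ha
        · rintro x ⟨i, f, rfl⟩
          exact Algebra.subset_adjoin ⟨i, star f, rfl⟩
        · intro r
          rw [← algebraMap_star_comm]
          exact Subalgebra.algebraMap_mem _ _
        · intro x y _ _ hx hy
          rw [star_add]
          exact add_mem hx hy
        · intro x y _ _ hx hy
          rw [star_mul]
          exact mul_mem hy hx }
  have hA : A.SeparatesPoints := by
    intro x y hxy
    obtain ⟨i, hi⟩ := Function.ne_iff.1 hxy
    obtain ⟨f, hf0, hf1, -⟩ := exists_continuous_zero_one_of_isClosed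
      (isClosed_singleton (x := x i)) (isClosed_singleton (x := y i)) (by simpa using hi)
    refine ⟨co i (H466.toC f), ⟨co i (H466.toC f), Algebra.subset_adjoin ⟨i, _, rfl⟩, rfl⟩, ?_⟩
    have h0 : f (x i) = 0 := hf0 rfl
    have h1 : f (y i) = 1 := hf1 rfl
    simp [h0, h1]
  have htop := ContinuousMap.starSubalgebra_topologicalClosure_eq_top_of_separatesPoints A hA
  have hF : F ∈ A.topologicalClosure := by rw [htop]; trivial
  have hF' : F ∈ closure (A : Set C(ι → P, ℂ)) := hF
  refine closure_minimal (s := (A : Set C(ι → P, ℂ))) (t := {F | p F}) ?_ hcl hF'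
  intro a ha
  have ha' : a ∈ Algebra.adjoin ℂ s := ha
  refine Algebra.adjoin_induction (p := fun a _ => p a) ?_ ?_ ?_ ?_ ha'
  · rintro x ⟨i, f, rfl⟩
    exact hco i f
  · exact hcst
  · exact fun x y _ _ hx hy => hadd x y hx hy
  · exact fun x y _ _ hx hy => hmul x y hx hy

variable {K : Type*} [NormedAddCommGroup K] [InnerProductSpace ℂ K] [CompleteSpace K]

theorem cont_hom {X : Type*} [TopologicalSpace X] [CompactSpace X]
    (Φ : C(X, ℂ) →⋆ₐ[ℂ] (K →L[ℂ] K)) : Continuous Φ :=
  (AddMonoidHomClass.continuous_of_bound Φ 1 fun x => by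
    rw [one_mul]
    exact NonUnitalStarAlgHom.norm_apply_le Φ x)

/-- conjugated calculi: `U Φ(·) V = Ψ` if this is so for the coordinates -/
theorem conj_eq (Φ Ψ : C(ι → P, ℂ) →⋆ₐ[ℂ] (K →L[ℂ] K)) (g : C(ι → P, ι → P)) {U V : K →L[ℂ] K}
    (hUV : U * V = 1) (hVU : V * U = 1)
    (h : ∀ i f, U * Φ (co i f) * V = Ψ ((co i f).comp g)) (F : C(ι → P, ℂ)) :
    U * Φ F * V = Ψ (F.comp g) := by
  refine co_induction (fun F => U * Φ F * V = Ψ (F.comp g)) ?_ h ?_ ?_ ?_ F
  · refine isClosed_eq ?_ ?_
    · exact (continuous_const.mul (cont_hom Φ)).mul continuous_const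
    · exact (cont_hom Ψ).comp (ContinuousMap.continuous_precomp g)
  · intro c
    have e : (algebraMap ℂ C(ι → P, ℂ) c).comp g = algebraMap ℂ C(ι → P, ℂ) c := rfl
    rw [e, AlgHomClass.commutes, AlgHomClass.commutes, Algebra.algebraMap_eq_smul_one,
      mul_smul_comm, mul_one, smul_mul_assoc, hUV]
  · intro F G hF hG
    have e : (F + G).comp g = F.comp g + G.comp g := rfl
    rw [e, map_add, map_add, mul_add, add_mul, hF, hG]
  · intro F G hF hG
    have e : (F * G).comp g = F.comp g * G.comp g := rfl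
    rw [e, map_mul, map_mul, ← hF, ← hG]
    calc U * (Φ F * Φ G) * V = U * Φ F * (V * U) * Φ G * V := by
          rw [hVU]; simp only [mul_assoc, one_mul, mul_one]
      _ = _ := by simp only [mul_assoc]

/-- uniqueness of the joint calculus -/
theorem hom_uniq {Φ Ψ : C(ι → P, ℂ) →⋆ₐ[ℂ] (K →L[ℂ] K)} (h : ∀ i f, Φ (co i f) = Ψ (co i f)) :
    Φ = Ψ := by
  ext1 F
  have := conj_eq Φ Ψ (ContinuousMap.id _) (U := 1) (V := 1) (one_mul 1) (one_mul 1)
    (fun i f => by rw [one_mul, mul_one, h]; rfl) F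
  rw [one_mul, mul_one] at this
  exact this

/-- commutants -/
theorem comm_all (Φ : C(ι → P, ℂ) →⋆ₐ[ℂ] (K →L[ℂ] K)) {T : K →L[ℂ] K}
    (h : ∀ i f, Commute T (Φ (co i f))) (F : C(ι → P, ℂ)) : Commute T (Φ F) := by
  refine co_induction (fun F => Commute T (Φ F)) ?_ h ?_ ?_ ?_ F
  · exact isClosed_eq (continuous_const.mul (cont_hom Φ)) ((cont_hom Φ).mul continuous_const)
  · intro c
    rw [AlgHomClass.commutes]
    exact Algebra.commutes' c T |>.symm
  · intro F G hF hG
    rw [map_add]
    exact hF.add_right hG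
  · intro F G hF hG
    rw [map_mul]
    exact hF.mul_right hG

end SW

end Vale.Agent.P092.H171
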